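import Vale.Agent.P027M.K.Pic
import Vale.Agent.P004M.TE.Deg
import Vale.Agent.P179W.PtRed
import Vale.Agent.P179W.Div

/-! # P014, block PUSH: specialisation of points over a function field, theorem of Abel -/

set_option autoImplicit false
set_option linter.all false

open WeierstrassCurve WeierstrassCurve.Affine Polynomial IntermediateField

noncomputable section

namespace Vale.Agent.P014T.Pu

open Vale.Agent.P019P P025H492 P027M.K Vale.Agent.P004H.H666 Vale.Agent.P004M.TE

section mp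

variable {F F' F'' : Type} [Field F] [Field F'] [Field F''] [DecidableEq F] [DecidableEq F']
  [DecidableEq F''] {a b : F} {a' b' : F'} {a'' b'' : F''}

/-- the map of points along a homomorphism of fields (any decidability instance) -/
def mp (f : F →+* F') (ha : f a = a') (hb : f b = b') : (crv a b).Point →+ (crv a' b').Point :=
  AddMonoidHom.mk' (P179W.ptFun f (crv a' b')) (by
    obtain rfl : ‹DecidableEq F› = fun _ _ => Classical.propDecidable _ := Subsingleton.elim _ _
    obtain rfl : ‹DecidableEq F'› = fun _ _ => Classical.propDecidable _ := Subsingleton.elim _ _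
    exact (P179W.ptMap_holds F F' f (crv a b) (crv a' b') (crv_map f ha hb)).1)

theorem mp_pm (f : F →+* F') (ha : f a = a') (hb : f b = b') (ξ : (crv a b).Point) :
    mp f ha hb ξ = pm f ha hb ξ := rfl

theorem mp_some (f : F →+* F') (ha : f a = a') (hb : f b = b') {x y : F}
    (h : (crv a b).Nonsingular x y) :
    mp f ha hb (.some x y h) = .some (f x) (f y) (nsg_map f ha hb h) := pm_some f ha hb h

theorem mp_inj (f : F →+* F') (ha : f a = a') (hb : f b = b') : Function.Injective (mp f ha hb) :=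
  pm_inj f ha hb

theorem mp_mp (f : F →+* F') (ha : f a = a') (hb : f b = b') (g : F' →+* F'') (ga : g a' = a'')
    (gb : g b' = b'') (u : F →+* F'') (ua : u a = a'') (ub : u b = b'') (e : ∀ z, u z = g (f z))
    (ξ : (crv a b).Point) : mp g ga gb (mp f ha hb ξ) = mp u ua ub ξ := by
  rcases ξ with _ | ⟨x, y, h⟩
  · rfl
  · rw [mp_some, mp_some, mp_some]
    simp only [e]

theorem mp_id (f : F →+* F) (ha : f a = a) (hb : f b = b) {x y : F} (h : (crv a b).Nonsingular x y)
    (hx : f x = x) (hy : f y = y) : mp f ha hb (.some x y h) = .some x y h := by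
  rw [mp_some]
  simp only [hx, hy]

end mp

variable {k F : Type} [Field k] [Field F] [Algebra k F] {a b : k} {a' b' : F}

/-- the curve over `F` comes from an elliptic curve over the constants -/
structure Cd (a b : k) (a' b' : F) : Prop where
  ha : algebraMap k F a = a'
  hb : algebraMap k F b = b'
  two : (2 : k) ≠ 0
  hD : 4 * a ^ 3 + 27 * b ^ 2 ≠ 0

theorem disc {K : Type} [Field K] (a b : K) : (crv a b).Δ = -2 ^ 4 * (4 * a ^ 3 + 27 * b ^ 2) := by
  simp only [WeierstrassCurve.Δ, WeierstrassCurve.b₂, WeierstrassCurve.b₄, WeierstrassCurve.b₆,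
    WeierstrassCurve.b₈]
  ring

theorem Cd.d0 (h : Cd a b a' b') : (crv a b).Δ ≠ 0 := by
  rw [disc]
  exact mul_ne_zero (neg_ne_zero.2 (pow_ne_zero _ h.two)) h.hD

theorem Cd.dm (h : Cd a b a' b') : (crv a' b').Δ = algebraMap k F (crv a b).Δ := by
  rw [← crv_map _ h.ha h.hb, map_Δ]

theorem Cd.d1 (h : Cd a b a' b') : (crv a' b').Δ ≠ 0 := by
  rw [h.dm]
  exact (_root_.map_ne_zero _).2 h.d0

variable [CFF k F]

theorem lt_iff (P : Plk k F) (z : F) : P.1.valuation z < 1 ↔ z ∈ Mge P 1 := by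
  rcases eq_or_ne z 0 with rfl | h
  · simp
  · rw [← not_le, ← P.1.valuation.map_one, val_le_iff P one_ne_zero h, mem_Mge, or_iff_right h,
      ord_one]
    omega

theorem one_iff (P : Plk k F) (z : F) : z ∈ Mge P 1 ↔ z = 0 ∨ z⁻¹ ∉ P.1 := by
  rcases eq_or_ne z 0 with rfl | h
  · simp
  · rw [mem_Mge, mem_iff_ord, ord_inv]
    simp only [h, inv_eq_zero, false_or]
    omega

theorem val_of {P : Plk k F} {z : F} (h : z ∈ P.1) : Val P z (vl P z) :=
  val_vl (ord_nonneg_of_mem P h)

theorem mem_of {P : Plk k F} {z : F} {c : k} (h : Val P z c) : z ∈ P.1 :=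
  (mem_iff_ord P z).2 h.mem

theorem Cd.red (h : Cd a b a' b') (P : Plk k F) :
    (∀ x y, (crv a' b').Equation x y → x ∈ P.1 → y ∈ P.1 ∧ (crv a b).Nonsingular (vl P x) (vl P y)) ∧
    open Classical in ∀ ξ η : (crv a' b').Point,
      P179W.ptRed {z | P.1.valuation z ≤ 1} (vl P) (crv a b) (ξ + η) =
      P179W.ptRed {z | P.1.valuation z ≤ 1} (vl P) (crv a b) ξ +
      P179W.ptRed {z | P.1.valuation z ≤ 1} (vl P) (crv a b) η := by
  have c : ∀ z : k, P.1.valuation (algebraMap k F z) ≤ 1 := fun z =>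
    (P.1.valuation_le_one_iff _).2 (P.2.1 z)
  have c0 : P.1.valuation 0 ≤ 1 := by simp
  have v0 : vl P 0 = 0 := by simpa using vl_const P 0
  have v : ∀ z, P.1.valuation z ≤ 1 → Val P z (vl P z) := fun z e =>
    val_of ((P.1.valuation_le_one_iff _).1 e)
  obtain ⟨h1, h2, -⟩ := P179W.ptRed_holds F _ P.1.valuation (crv a' b')
    ⟨c0, c0, c0, h.ha ▸ c a, h.hb ▸ c b⟩ (h.dm ▸ AuxCVal.v_cst P h.d0)
  obtain ⟨-, h3, h4⟩ := h2 k (vl P) (crv a b) (by simpa using vl_const P 1)
    (fun x y e e' => vl_eq ((v x e).add (v y e'))) (fun x y e e' => vl_eq ((v x e).mul (v y e')))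
    (fun x e => by
      rw [lt_iff, ← Val.zero_iff]
      exact ⟨fun l => l ▸ v x e, fun l => vl_eq l⟩)
    v0.symm v0.symm v0.symm (h.ha ▸ (vl_const P a).symm) (h.hb ▸ (vl_const P b).symm)
  exact ⟨fun x y e l => ⟨(P.1.valuation_le_one_iff _).1 (h1 x y e
    ((P.1.valuation_le_one_iff _).2 l)), h3 x y e ((P.1.valuation_le_one_iff _).2 l)⟩, h4⟩

variable [DecidableEq k] [DecidableEq F]

/-- **specialisation** at a place -/
def sp (h : Cd a b a' b') (P : Plk k F) : (crv a' b').Point →+ (crv a b).Point :=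
  AddMonoidHom.mk' (P179W.ptRed {z | P.1.valuation z ≤ 1} (vl P) (crv a b)) (by
    obtain rfl : ‹DecidableEq F› = fun _ _ => Classical.propDecidable _ := Subsingleton.elim _ _
    obtain rfl : ‹DecidableEq k› = fun _ _ => Classical.propDecidable _ := Subsingleton.elim _ _
    exact (h.red P).2)

variable (h : Cd a b a' b')

theorem sp_pole {P : Plk k F} {x y : F} (n : (crv a' b').Nonsingular x y) (hx : x ∉ P.1) :
    sp h P (.some x y n) = 0 :=
  if_neg fun e => hx ((P.1.valuation_le_one_iff _).1 e)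

theorem sp_mem {P : Plk k F} {x y : F} (n : (crv a' b').Nonsingular x y) (hx : x ∈ P.1) :
    sp h P (.some x y n) = .some (vl P x) (vl P y) ((h.red P).1 x y n.1 hx).2 :=
  (if_pos ((P.1.valuation_le_one_iff _).2 hx)).trans (P179W.pt_of _)

theorem sp_some {P : Plk k F} {x y : F} (n : (crv a' b').Nonsingular x y) {c d : k}
    (hx : Val P x c) (hy : Val P y d) : ∃ n', sp h P (.some x y n) = .some c d n' := by
  obtain rfl := vl_eq hx
  obtain rfl := vl_eq hy
  exact ⟨_, sp_mem h n (mem_of hx)⟩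

theorem sp_eq_zero {P : Plk k F} {x y : F} (n : (crv a' b').Nonsingular x y) :
    sp h P (.some x y n) = 0 ↔ x ∉ P.1 :=
  ⟨fun e l => Point.some_ne_zero _ ((sp_mem h n l).symm.trans e), sp_pole h n⟩

theorem sp_eq_some {P : Plk k F} {x y : F} (n : (crv a' b').Nonsingular x y) {c d : k}
    (n' : (crv a b).Nonsingular c d) :
    sp h P (.some x y n) = .some c d n' ↔ Val P x c ∧ Val P y d := by
  refine ⟨fun e => ?_, fun e => (sp_some h n e.1 e.2).2⟩
  have l : x ∈ P.1 := not_not.1 fun l => Point.some_ne_zero _ (e.symm.trans (sp_pole h n l))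
  rw [sp_mem h n l] at e
  injection e with e1 e2
  exact ⟨e1 ▸ val_of l, e2 ▸ val_of ((h.red P).1 x y n.1 l).1⟩

/-- constant points -/
theorem sp_const (P : Plk k F) (R : (crv a b).Point) :
    sp h P (mp (algebraMap k F) h.ha h.hb R) = R := by
  rcases R with _ | ⟨c, d, n⟩
  · exact map_zero _
  · rw [mp_some]
    exact (sp_some h _ (Val.const P c) (Val.const P d)).2

/-- a point which specialises to zero at infinitely many places is zero -/
theorem eq_zero_of_inf {ξ : (crv a' b').Point} (e : {P | sp h P ξ = 0}.Infinite) : ξ = 0 := by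
  rcases ξ with _ | ⟨x, y, n⟩
  · rfl
  refine absurd ((dv k x).support.finite_toSet.subset fun P l => ?_) e
  have := (mem_iff_ord P x).not.1 ((sp_eq_zero h n).1 l)
  exact Finsupp.mem_support_iff.2 (by rw [dv_apply]; omega)

/-- **the sum of a divisor** -/
def S (ξ : (crv a' b').Point) : (Plk k F →₀ ℤ) →+ (crv a b).Point :=
  (Finsupp.linearCombination ℤ fun P => sp h P ξ).toAddMonoidHom

theorem S_single (ξ : (crv a' b').Point) (P : Plk k F) (n : ℤ) :
    S h ξ (Finsupp.single P n) = n • sp h P ξ := Finsupp.linearCombination_single _ _ _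

theorem S_apply (ξ : (crv a' b').Point) (D : Plk k F →₀ ℤ) :
    S h ξ D = ∑ P ∈ D.support, D P • sp h P ξ := rfl

theorem S_eq (ξ : (crv a' b').Point) {D : Plk k F →₀ ℤ} {T : Finset (Plk k F)}
    (e : ∀ P, P ∉ T → D P = 0 ∨ sp h P ξ = 0) : S h ξ D = ∑ P ∈ T, D P • sp h P ξ := by
  classical
  rw [S_apply, Finset.sum_subset (s₂ := D.support ∪ T) Finset.subset_union_left fun P _ l => by
      rw [Finsupp.notMem_support_iff.1 l, zero_smul],
    Finset.sum_subset (s₁ := T) Finset.subset_union_right fun P _ l => by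
      rcases e P l with l | l <;> simp [l]]

theorem S_congr (ξ : (crv a' b').Point) {D D' : Plk k F →₀ ℤ}
    (e : ∀ P, D P = D' P ∨ sp h P ξ = 0) : S h ξ D = S h ξ D' := by
  rw [← sub_eq_zero, ← map_sub, S_eq h ξ (T := ∅) fun P _ => (e P).imp_left fun l => by simp [l]]
  rfl

/-- the sum as a function of the point -/
def Sx (D : Plk k F →₀ ℤ) : (crv a' b').Point →+ (crv a b).Point :=
  AddMonoidHom.mk' (fun ξ => S h ξ D) fun ξ η => by
    simp only [S_apply, map_add, smul_add, Finset.sum_add_distrib]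

theorem Sx_apply (D : Plk k F →₀ ℤ) (ξ : (crv a' b').Point) : Sx h D ξ = S h ξ D := rfl

theorem S_add (ξ η : (crv a' b').Point) (D : Plk k F →₀ ℤ) :
    S h (ξ + η) D = S h ξ D + S h η D := (Sx h D).map_add ξ η

theorem S_zsmul (n : ℤ) (ξ : (crv a' b').Point) (D : Plk k F →₀ ℤ) :
    S h (n • ξ) D = n • S h ξ D := (Sx h D).map_zsmul n ξ

theorem S_sum {ι : Type} (s : Finset ι) (ξ : ι → (crv a' b').Point) (D : Plk k F →₀ ℤ) :
    S h (∑ i ∈ s, ξ i) D = ∑ i ∈ s, S h (ξ i) D := map_sum (Sx h D) ξ s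

theorem S_const (R : (crv a b).Point) (D : Plk k F →₀ ℤ) :
    S h (mp (algebraMap k F) h.ha h.hb R) D = dg D • R := by
  induction D using Finsupp.induction_linear with
  | zero => simp
  | add D D' e e' => rw [map_add, map_add, e, e', add_smul]
  | single P n => rw [S_single, sp_const]; simp [dg]

section map

variable {k' F' : Type} [Field k'] [Field F'] [Algebra k' F'] [CFF k' F'] [DecidableEq k']
  [DecidableEq F'] {c d : k'} {c' d' : F'} (h' : Cd c d c' d')

omit [DecidableEq k] [DecidableEq F] [DecidableEq k'] [DecidableEq F'] in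
theorem val_map {s : F →+* F'} {s₀ : k →+* k'}
    (hs : ∀ z, s (algebraMap k F z) = algebraMap k' F' (s₀ z)) {P : Plk k F} {P' : Plk k' F'}
    (e : ∀ z, s z ∈ P'.1 ↔ z ∈ P.1) {z : F} {u : k} (l : Val P z u) : Val P' (s z) (s₀ u) := by
  unfold Val at *
  rw [← hs, ← map_sub, one_iff, ← map_inv₀, e, map_eq_zero, ← one_iff]
  exact l

/-- **functoriality** -/
theorem sp_map {s : F →+* F'} {s₀ : k →+* k'}
    (hs : ∀ z, s (algebraMap k F z) = algebraMap k' F' (s₀ z)) {P : Plk k F} {P' : Plk k' F'}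
    (e : ∀ z, s z ∈ P'.1 ↔ z ∈ P.1) (e1 : s₀ a = c) (e2 : s₀ b = d) (e3 : s a' = c')
    (e4 : s b' = d') (ξ : (crv a' b').Point) :
    sp h' P' (mp s e3 e4 ξ) = mp s₀ e1 e2 (sp h P ξ) := by
  rcases ξ with _ | ⟨x, y, n⟩
  · exact (map_zero _).trans ((map_zero _).symm.trans (congrArg _ (map_zero _).symm))
  rw [mp_some]
  by_cases l : x ∈ P.1
  · rw [sp_mem h n l, mp_some]
    exact (sp_some h' _ (val_map hs e (val_of l))
      (val_map hs e (val_of ((h.red P).1 x y n.1 l).1))).2
  · rw [sp_pole h n l, sp_pole h' _ fun l' => l ((e x).1 l'), map_zero]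

theorem sp_semi {s : F ≃+* F'} {s₀ : k ≃+* k'}
    (hs : ∀ z, s (algebraMap k F z) = algebraMap k' F' (s₀ z)) (P : Plk k F)
    (e1 : (s₀ : k →+* k') a = c) (e2 : (s₀ : k →+* k') b = d) (e3 : (s : F →+* F') a' = c')
    (e4 : (s : F →+* F') b' = d') (ξ : (crv a' b').Point) :
    sp h' (plEquiv s s₀ hs P) (mp s e3 e4 ξ) = mp s₀ e1 e2 (sp h P ξ) :=
  sp_map h h' hs (fun z => by rw [AuxFAct.mem_plEquiv]; simp) e1 e2 e3 e4 ξ

theorem S_semi {s : F ≃+* F'} {s₀ : k ≃+* k'}
    (hs : ∀ z, s (algebraMap k F z) = algebraMap k' F' (s₀ z))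
    (e1 : (s₀ : k →+* k') a = c) (e2 : (s₀ : k →+* k') b = d) (e3 : (s : F →+* F') a' = c')
    (e4 : (s : F →+* F') b' = d') (ξ : (crv a' b').Point) (D : Plk k F →₀ ℤ) :
    S h' (mp s e3 e4 ξ) (D.mapDomain (plEquiv s s₀ hs)) = mp s₀ e1 e2 (S h ξ D) := by
  induction D using Finsupp.induction_linear with
  | zero => simp
  | add D D' e e' => rw [Finsupp.mapDomain_add, map_add, map_add, map_add, e, e']
  | single P n => rw [Finsupp.mapDomain_single, S_single, S_single, map_zsmul, sp_semi h h' hs]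

end map

section tower

variable {L : Type} [Field L] [Algebra k L] [Algebra F L] [IsScalarTower k F L] [CFF k L]
  [DecidableEq L] {a'' b'' : L} (h' : Cd a b a'' b'') (e3 : algebraMap F L a' = a'')
  (e4 : algebraMap F L b' = b'')

theorem sp_down [Algebra.IsAlgebraic F L] (Q : Plk k L) (ξ : (crv a' b').Point) :
    sp h' Q (mp (algebraMap F L) e3 e4 ξ) = sp h (down F Q) ξ := by
  rw [sp_map h h' (s₀ := RingHom.id k) (fun z => (IsScalarTower.algebraMap_apply k F L z).symm)
    (P := down F Q) (fun z => Iff.rfl) rfl rfl]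
  generalize sp h (down F Q) ξ = R
  rcases R with _ | ⟨x, y, n⟩
  · rfl
  · exact mp_id _ _ _ n rfl rfl

theorem S_push [Algebra.IsAlgebraic F L] (ξ : (crv a' b').Point) (D : Plk k L →₀ ℤ) :
    S h' (mp (algebraMap F L) e3 e4 ξ) D = S h ξ (push F D) := by
  induction D using Finsupp.induction_linear with
  | zero => simp
  | add D D' e e' => rw [map_add, map_add, map_add, e, e']
  | single P n =>
    rw [show push F (Finsupp.single P n) = Finsupp.single (down F P) n from
      Finsupp.mapDomain_single, S_single, S_single, sp_down h h']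

theorem S_pull [FiniteDimensional F L] (ξ : (crv a' b').Point) (D : Plk k F →₀ ℤ) :
    S h' (mp (algebraMap F L) e3 e4 ξ) (pull L D) = Module.finrank F L • S h ξ D := by
  rw [S_push h h', push_pull, map_nsmul]

end tower

/-- the field is generated by the point -/
structure Gn (k : Type) {F : Type} [Field k] [Field F] [Algebra k F] (x y : F) : Prop where
  tr : Transcendental k x
  top : adjoin k {x, y} = ⊤

theorem gn_main {x y : F} (n : (crv a' b').Nonsingular x y) (g : Gn k x y) :
    Function.Bijective (fun P => sp h P (.some x y n)) ∧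
      ∀ z : F, z ≠ 0 → S h (.some x y n) (dv k z) = 0 := by
  obtain rfl : ‹DecidableEq F› = fun _ _ => Classical.propDecidable _ := Subsingleton.elim _ _
  letI : DecidableEq F := fun _ _ => Classical.propDecidable _
  have ac : IsAlgClosed k := CFF.ac F
  let k0 : Subfield F := (algebraMap k F).fieldRange
  have lf : ∀ f : F[X], (∀ j, f.coeff j ∈ k0) → ∃ f0 : k[X], f0.map (algebraMap k F) = f :=
    fun f e => (mem_lifts f).1 ((lifts_iff_coeff_lifts f).2 fun j => by
      obtain ⟨c, hc⟩ := e j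
      exact ⟨c, hc⟩)
  have top : ∀ z, z ∈ P179W.adj k0 {x, y} := fun z => by
    have : z ∈ (adjoin k {x, y}).toSubfield := by rw [g.top]; trivial
    exact this
  obtain ⟨o, -, H2, H3, H4, -⟩ := P179W.div_holds F k0 (crv a' b') x y (fun f e l => by
      obtain ⟨f0, rfl⟩ := lf f e
      rw [natDegree_map] at l
      obtain ⟨z, hz⟩ := IsAlgClosed.exists_root f0 (natDegree_pos_iff_degree_pos.1 l).ne'
      exact ⟨_, ⟨z, rfl⟩, by rw [eval_map_algebraMap, aeval_algebraMap_apply, coe_aeval_eq_eval,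
        hz.eq_zero, map_zero]⟩)
    ⟨zero_mem _, zero_mem _, zero_mem _, ⟨a, h.ha⟩, ⟨b, h.hb⟩⟩ h.d1 n.1 (fun f e l => by
      obtain ⟨f0, rfl⟩ := lf f e
      rw [eval_map_algebraMap] at l
      rw [(transcendental_iff.1 g.tr) f0 l, Polynomial.map_zero])
  let ι := mp (algebraMap k F) h.ha h.hb
  have on : ∀ R, P179W.OnSet (k0 : Set F) (ι R) := fun R => by
    rcases R with _ | ⟨c, d, n'⟩
    · trivial
    · rw [mp_some]
      exact ⟨⟨c, rfl⟩, ⟨d, rfl⟩⟩
  have cs : ∀ P : Plk k F, ∀ c ∈ k0, c ∈ P.1 := fun P c ⟨c', e⟩ => e ▸ P.2.1 c'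
  have ce : ∀ P : Plk k F, P179W.Cent P.1 x y (ι (sp h P (.some x y n))) := fun P => by
    by_cases l : x ∈ P.1
    · rw [sp_mem h n l, mp_some]
      exact ⟨(lt_iff P _).2 (val_of l), (lt_iff P _).2 (val_of ((h.red P).1 x y n.1 l).1)⟩
    · rw [sp_pole h n l]
      exact l
  have oe : ∀ (P : Plk k F) z, z ≠ 0 → ord P z = o (ι (sp h P (.some x y n))) z := fun P => by
    obtain ⟨t, -, t0, t1, e⟩ := H3 P.1 _ (cs P) (on _) (ce P)
    have e' : ∀ z, z ≠ 0 → ord P z = o (ι (sp h P (.some x y n))) z * ord P t := fun z l => by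
      rw [← ord_zpow, ← val_eq_iff P l (zpow_ne_zero _ t0)]
      exact e z (top z) l
    obtain ⟨π, π0, π1⟩ := exists_unif P
    have t2 := (mem_Mge.1 ((lt_iff P t).1 t1)).resolve_left t0
    have t3 : ord P t = 1 := Int.eq_one_of_mul_eq_one_left (by omega) ((e' π π0).symm.trans π1)
    simpa [t3] using e'
  have inj : Function.Injective fun P => sp h P (.some x y n) := fun P Q e =>
    Plk.eq_of_le fun z l => (mem_iff_ord Q z).2 ((eq_or_ne z 0).imp_right fun z0 => by
      rw [oe Q z z0, ← show sp h P _ = sp h Q _ from e, ← oe P z z0]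
      exact ord_nonneg_of_mem P l)
  have sur : ∀ Q, P179W.OnSet (k0 : Set F) Q → ∃ P, ι (sp h P (.some x y n)) = Q := fun Q l => by
    obtain ⟨V, v1, ⟨z, -, v2⟩, v3⟩ := H2 Q l
    let P : Plk k F := ⟨V, fun c => v1 _ ⟨c, rfl⟩, fun e => v2 (e ▸ ValuationSubring.mem_top _)⟩
    exact ⟨P, P179W.DivH.cent_uniq v1 (on _) l (ce P) v3⟩
  refine ⟨⟨inj, fun R => (sur _ (on R)).imp fun P e => mp_inj _ _ _ e⟩, fun z z0 => ?_⟩
  obtain ⟨T, T1, T2, -, T3⟩ := H4 z (top z) z0
  refine mp_inj (algebraMap k F) h.ha h.hb ?_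
  rw [map_zero, S_apply, map_sum, ← T3]
  refine Finset.sum_bij_ne_zero (fun P _ _ => ι (sp h P (.some x y n))) (fun P l _ => ?_)
    (fun P _ _ Q _ _ e => inj (mp_inj _ _ _ e)) (fun Q l l' => ?_) fun P _ _ => ?_
  · by_contra e
    exact Finsupp.mem_support_iff.1 l (by rw [dv_apply, oe P z z0, T2 _ (on _) e])
  · obtain ⟨P, rfl⟩ := sur Q (T1 Q l)
    refine ⟨P, Finsupp.mem_support_iff.2 fun e => l' ?_, ?_, rfl⟩
    · rw [← oe P z z0, ← dv_apply, e, zero_smul]
    · rwa [map_zsmul, dv_apply, oe P z z0]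
  · rw [map_zsmul, dv_apply, oe P z z0]

omit [DecidableEq k] [DecidableEq F] in
theorem alg_const {x : F} (e : IsAlgebraic k x) : ∃ c, algebraMap k F c = x := by
  have ac : IsAlgClosed k := CFF.ac F
  exact minpoly.mem_range_of_degree_eq_one k x
    (IsAlgClosed.degree_eq_one_of_irreducible k (minpoly.irreducible e.isIntegral))

/-- a point is constant or has a transcendental abscissa -/
theorem const_or (ξ : (crv a' b').Point) : (∃ R, mp (algebraMap k F) h.ha h.hb R = ξ) ∨
    ∃ x y n, ξ = .some x y n ∧ Transcendental k x := by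
  rcases ξ with _ | ⟨x, y, n⟩
  · exact .inl ⟨0, rfl⟩
  by_cases e : IsAlgebraic k x
  swap
  · exact .inr ⟨x, y, n, rfl, e⟩
  obtain ⟨c, rfl⟩ := alg_const e
  have e1 := (equation_iff _ _).1 n.1
  obtain ⟨d, rfl⟩ := alg_const (k := k) (x := y) ⟨X ^ 2 - C (c ^ 3 + a * c + b),
    X_pow_sub_C_ne_zero two_pos _, by
      simp only [map_sub, map_pow, aeval_X, aeval_C, map_add, map_mul, h.ha, h.hb]
      linear_combination e1⟩
  refine .inl ⟨.some c d ((map_nonsingular (crv a b) (algebraMap k F).injective c d).1 ?_),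
    mp_some _ _ _ _⟩
  rwa [show (crv a b).map (algebraMap k F) = crv a' b' from crv_map _ h.ha h.hb]

section sub

omit [CFF k F] [DecidableEq k] [DecidableEq F]

variable (k) in
/-- the abscissa in the field of the point -/
def gx (x y : F) : adjoin k {x, y} := ⟨x, subset_adjoin _ _ (by simp)⟩

variable (k) in
/-- the ordinate in the field of the point -/
def gy (x y : F) : adjoin k {x, y} := ⟨y, subset_adjoin _ _ (by simp)⟩

variable {x y : F}

theorem gn_adj (t : Transcendental k x) : Gn k (gx k x y) (gy k x y) :=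
  ⟨(transcendental_algebraMap_iff (A := F) (algebraMap (adjoin k {x, y}) F).injective).1 t,
    IntermediateField.lift_injective _ (by
      rw [IntermediateField.lift_top, IntermediateField.lift_adjoin, Set.image_pair]; rfl)⟩

theorem cff_adj [CFF k F] (t : Transcendental k x) : CFF k (adjoin k {x, y}) :=
  cff_down (L := F) (gn_adj t).tr

theorem fin_adj [CFF k F] (t : Transcendental k x) : FiniteDimensional (adjoin k {x, y}) F :=
  finite_of_transcendental (gn_adj t).tr

theorem Cd.sub (h : Cd a b a' b') (K : IntermediateField k F) :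
    Cd a b (algebraMap k K a) (algebraMap k K b) := ⟨rfl, rfl, h.two, h.hD⟩

theorem Cd.sa (h : Cd a b a' b') (K : IntermediateField k F) :
    algebraMap K F (algebraMap k K a) = a' := h.ha

theorem Cd.sb (h : Cd a b a' b') (K : IntermediateField k F) :
    algebraMap K F (algebraMap k K b) = b' := h.hb

theorem Cd.ns (h : Cd a b a' b') {K : IntermediateField k F} {u v : K}
    (n : (crv a' b').Nonsingular u v) :
    (crv (algebraMap k K a) (algebraMap k K b)).Nonsingular u v :=
  (map_nonsingular _ (algebraMap K F).injective _ _).1 (by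
    rwa [show (crv (algebraMap k K a) (algebraMap k K b)).map (algebraMap K F) = crv a' b' from
      crv_map _ (h.sa K) (h.sb K)])

theorem mp_gen [DecidableEq F] [DecidableEq (adjoin k {x, y})] (n : (crv a' b').Nonsingular x y) :
    mp (algebraMap (adjoin k {x, y}) F) (h.sa _) (h.sb _)
      (.some (gx k x y) (gy k x y) (h.ns n)) = .some x y n := mp_some _ _ _ _

end sub

/-- **Abel** -/
theorem abel (ξ : (crv a' b').Point) {z : F} (z0 : z ≠ 0) : S h ξ (dv k z) = 0 := by
  rcases const_or h ξ with ⟨R, rfl⟩ | ⟨x, y, n, rfl, t⟩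
  · rw [S_const, dg_dv, zero_smul]
  classical
  have := cff_adj (y := y) t
  have := fin_adj (y := y) t
  rw [← mp_gen h n, S_push (h.sub _) h, ← dv_norm]
  exact (gn_main _ _ (gn_adj t)).2 _ (norm_ne_zero' z0)

theorem abel_prn (ξ : (crv a' b').Point) {D : Plk k F →₀ ℤ} (e : D ∈ prn k F) : S h ξ D = 0 := by
  obtain ⟨z, z0, rfl⟩ := e
  exact abel h ξ z0

end Vale.Agent.P014T.Pu
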