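import Vale.Agent.P014T.Pu.Ad
import Vale.Agent.P014T.Ts.Act
import Vale.Agent.P014T.Ew.Cmp

/-! # P014, block PUSH: the pairing of Weil over the algebraic numbers -/

set_option autoImplicit false
set_option linter.all false

open scoped Classical

noncomputable section

namespace Vale.Agent.P014T.Pu

open Vale.Agent.P022 (Qb GQ)
open Vale.Agent.P004M.TE hiding Qb GQ
open Vale.Agent.P014T.Ts (Ep ea cd)

variable {A B : ℤ} (hD : 4 * (A : ℚ) ^ 3 + 27 * (B : ℚ) ^ 2 ≠ 0)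

theorem pt_ep : Pt A B = Ep Qb A B := rfl

theorem add_ep : (inferInstance : AddCommGroup (Pt A B)) =
    (inferInstance : AddCommGroup (Ep Qb A B)) := rfl

theorem ga_ea (g : GQ) (x : Pt A B) : ga g x = ea (a := A) (b := B) (g : Qb ≃+* Qb) x := by
  rcases x with _ | ⟨u, v, n⟩
  · rfl
  · exact (ga_some g n).trans (mp_some ((g : Qb ≃+* Qb) : Qb →+* Qb) (map_ratCast _ _)
      (map_ratCast _ _) n).symm

/-- the pairing in the words of the Tate module -/
def eQ (m : ℕ) (x y : Pt A B) : Additive Qbˣ := eW (cd hD Qb) m x y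

theorem eQ_al : Ew.Al fun n => eQ hD (2 ^ n) :=
  ⟨fun a b c => eW_add_left _ (by positivity) a b c, fun _ _ => eW_skew _ _ _ _,
    fun a => eW_self _ (by positivity) a, fun {n x y} a b => by
      rw [pow_succ'] at a
      simp only [pow_succ']
      exact eW_level' _ two_ne_zero (by positivity) a b⟩

theorem eQ_wp : ∃ u : ℤ_[2]ˣ, ∀ n (x y : Pt A B), 2 ^ n • x = 0 → 2 ^ n • y = 0 →
    eQ hD (2 ^ n) x y = Ew.X ((u : ℤ_[2]) * Ki.wp hD n x y) :=
  Ew.cmp hD (eQ_al hD) fun _ a => eW_nondeg _ (by norm_num) a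

theorem eQ_ga (g : GQ) {m : ℕ} (hm : m ≠ 0) {x y : Pt A B} (a : m • x = 0) (b : m • y = 0) :
    eQ hD m (ga g x) (ga g y) = P027M.K.aU (g : Qb ≃+* Qb) (eQ hD m x y) := by
  rw [ga_ea, ga_ea]
  exact eW_semi (cd hD Qb) (cd hD Qb) (g : Qb ≃+* Qb) (map_ratCast _ _) (map_ratCast _ _) hm a b

end Vale.Agent.P014T.Pu
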