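import Vale.Agent.P014T.Pu.Ey
import Vale.Agent.P014T.Ts.Act
import Vale.Agent.P027M.M.CCf
import Vale.Agent.P027M.M.Hec1

/-! # P014, block PUSH: the universal point, Hecke operators, poles at the cusps -/

set_option autoImplicit false
set_option linter.all false

open WeierstrassCurve WeierstrassCurve.Affine UpperHalfPlane CongruenceSubgroup Filter Topology
open scoped MatrixGroups Classical

noncomputable section

namespace Vale.Agent.P014T.Pu

open P004N Vale.Agent.P022 Vale.Agent.P022.H218.L3 Vale.Agent.P022.H236.L3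
  Vale.Agent.P022.H231.L3 Vale.Agent.P027M.ES Vale.Agent.P019P
open Vale.Agent.P004H.H666 (crv)
open Vale.Agent.P022.H542.L3 (LS)
open Vale.Agent.P022K.F0.Cf (od ev Reg ev_add ev_mul ev_const reg_const)
open Vale.Agent.P004Z Vale.Agent.P004Z.EF
open Vale.Agent.P004Z.Ar (mb)
open Vale.Agent.P004Z.Ar.Fn (LR cp jG pt all_pl j_mem j_not cff)
open Vale.Agent.P027H (IsLat wp dwp g2 g3)
open Vale.Agent.P027M.M (FF FS mkF L Mdl M2 cv io)
open Vale.Agent.P014T.Es (LL)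
open Vale.Agent.P014T.Ts (Pm Ep mq mq_mq mq_inj cd)

/-! ### integrality -/

section itg

variable {F F' : Type} [Field F] [Field F'] {x j : F}

/-- `j` is integral over `ℚ[x]` -/
def Itg (x j : F) : Prop := ∃ (n : ℕ) (s : Finset (ℕ × Fin n)) (r : ℕ × Fin n → ℚ),
  j ^ n = ∑ i ∈ s, (r i : F) * (x ^ i.1 * j ^ (i.2 : ℕ))

theorem itg_map (φ : F →+* F') : Itg (φ x) (φ j) ↔ Itg x j :=
  exists₃_congr fun n s r => by
    rw [← φ.injective.eq_iff]
    simp only [map_sum, map_mul, map_pow, map_ratCast]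

theorem Itg.mem (h : Itg x j) (V : ValuationSubring F) (hV : ∀ r : ℚ, (r : F) ∈ V) (hx : x ∈ V) :
    j ∈ V := by
  obtain ⟨n, s, r, e⟩ := h
  rw [← V.valuation_le_one_iff]
  by_contra! k
  have k0 := pow_pos (zero_lt_one.trans k)
  refine (V.valuation.map_sum_lt (k0 n).ne' fun i _ => ?_).ne (by rw [← e, map_pow])
  rw [map_mul, map_mul, map_pow, map_pow, ← mul_assoc]
  exact (mul_le_of_le_one_left' (mul_le_one' ((V.valuation_le_one_iff _).2 (hV _))
    (pow_le_one' ((V.valuation_le_one_iff _).2 hx) _))).trans_lt (pow_lt_pow_right₀ k i.2.2)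

theorem Itg.pole {k : Type} [Field k] [Algebra k F] (h : Itg x j) (P : Plk k F) (n : j ∉ P.1) :
    x ∉ P.1 := fun e => n (h.mem _ (fun r => map_ratCast (algebraMap k F) r ▸ P.2.1 _) e)

theorem itg0 {k : Type} [Field k] [Algebra k F] [Algebra k F'] (φ : F →ₐ[k] F')
    (h : ∀ P : Plk k F, x ∈ P.1 → j ∈ P.1) :
    ∃ (n : ℕ) (s : Finset (ℕ × Fin n)) (c : ℕ × Fin n → k),
      φ j ^ n = ∑ i ∈ s, algebraMap k F' (c i) * (φ x ^ i.1 * φ j ^ (i.2 : ℕ)) := by
  have : j ∈ (integralClosure (Subring.closure (Set.range (algebraMap k F) ∪ {x})) F).toSubring := by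
    rw [← iInf_valuationSubring_superset, Subring.mem_iInf]
    rintro ⟨V, hV⟩
    rcases eq_or_ne V ⊤ with rfl | n
    · trivial
    · exact h ⟨V, fun c => hV (.inl ⟨c, rfl⟩), n⟩ (hV (.inr rfl))
  obtain ⟨p, m, e⟩ := this
  have l : j ^ p.natDegree ∈ Submodule.span k
      (Set.range fun i : ℕ × Fin p.natDegree => x ^ i.1 * j ^ (i.2 : ℕ)) := by
    rw [Polynomial.eval₂_eq_sum_range, Finset.sum_range_succ, m.coeff_natDegree, map_one, one_mul,
      add_eq_zero_iff_neg_eq, Finset.sum_range] at e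
    refine e ▸ neg_mem (Submodule.sum_mem _ fun b _ => ?_)
    obtain ⟨z, hz⟩ := p.coeff b
    change z * _ ∈ _
    have hz' : z ∈ Submodule.span k (Set.range fun i : ℕ => x ^ i) := by
      rwa [← Algebra.mem_adjoin_iff, ← Subalgebra.mem_toSubmodule, Algebra.adjoin_eq_span,
        ← Submonoid.powers_eq_closure] at hz
    clear hz
    induction hz' using Submodule.span_induction with
    | mem _ k => obtain ⟨i, rfl⟩ := k; exact Submodule.subset_span ⟨(i, b), rfl⟩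
    | zero => simp
    | add _ _ _ _ p q => rw [add_mul]; exact add_mem p q
    | smul c _ _ p => rw [smul_mul_assoc]; exact Submodule.smul_mem _ c p
  obtain ⟨c, hc⟩ := Finsupp.mem_span_range_iff_exists_finsupp.1 l
  exact ⟨_, c.support, c, by simpa only [Finsupp.sum, Algebra.smul_def, map_sum, map_pow, map_mul,
    AlgHom.commutes] using congrArg φ hc.symm⟩

end itg

/-- rational expansion -/
def Rq (x : Mer) : Prop := ∃ s, ExM 1 s x ∧ RatS s

theorem Rq.mul {x y : Mer} (h : Rq x) (h' : Rq y) : Rq (x * y) := by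
  obtain ⟨s, a, b⟩ := h
  obtain ⟨t, c, d⟩ := h'
  choose p hp using b
  choose q hq using d
  refine ⟨_, a.mul c, fun n => ?_⟩
  simp only [HahnSeries.coeff_mul, hp, hq]
  exact ⟨Finset.sum _ fun i : ℤ × ℤ => p i.1 * q i.2, by rw [Rat.cast_sum]; simp only [Rat.cast_mul]; rfl⟩

theorem Rq.pow {x : Mer} (h : Rq x) (n : ℕ) : Rq (x ^ n) := by
  induction n with
  | zero => exact ⟨_, by simpa using ExM.const 1 1, fun n => by
      rw [HahnSeries.coeff_one]
      split_ifs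
      exacts [⟨1, by simp⟩, ⟨0, by simp⟩]⟩
  | succ n ih => exact pow_succ x n ▸ ih.mul h

theorem exM_sum {ι : Type} (s : Finset ι) {t : ι → LS} {v : ι → Mer} (h : ∀ i, ExM 1 (t i) (v i))
    (c : ι → ℂ) : ExM 1 (∑ i ∈ s, HahnSeries.C (c i) * t i) (∑ i ∈ s, algebraMap ℂ Mer (c i) * v i) := by
  induction s using Finset.induction_on with
  | empty => simpa using ExM.const 1 0
  | insert i s n ih =>
    rw [Finset.sum_insert n, Finset.sum_insert n]
    exact ((ExM.const 1 _).mul (h i)).add ih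

/-- linear relations descend to the rationals -/
theorem desc {ι : Type} (s : Finset ι) {v : ι → Mer} (hv : ∀ i, Rq (v i)) {u : Mer} (hu : Rq u)
    (c : ι → ℂ) (e : u = ∑ i ∈ s, algebraMap ℂ Mer (c i) * v i) :
    ∃ r : ι → ℚ, u = ∑ i ∈ s, (r i : Mer) * v i := by
  obtain ⟨l, hl⟩ := (Algebra.linearMap ℚ ℂ).exists_leftInverse_of_injective
    (LinearMap.ker_eq_bot.2 (algebraMap ℚ ℂ).injective)
  choose t ht q hq using hv
  obtain ⟨z, hz, hp⟩ := hu
  have e1 := hz.unique one_ne_zero (e ▸ exM_sum s ht c)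
  refine ⟨fun i => l (c i), P027M.M.exM_inj hz ?_⟩
  simp only [← map_ratCast (algebraMap ℂ Mer)]
  refine (?_ : _ = z) ▸ exM_sum s ht _
  ext n
  obtain ⟨p, k⟩ := hp n
  have e2 := congrArg (fun s => l (s.coeff n)) e1
  simp only [HahnSeries.coeff_sum, HahnSeries.C_mul_eq_smul, HahnSeries.coeff_smul, hq, smul_eq_mul,
    k] at e2 ⊢
  rw [show l p = p from DFunLike.congr_fun hl p, map_sum] at e2
  rw [e2, Rat.cast_sum]
  refine Finset.sum_congr rfl fun i _ => ?_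
  rw [mul_comm (c i), ← Rat.smul_def (q i n) (c i), map_smul, smul_eq_mul, Rat.cast_mul, mul_comm]

theorem itg_of {Γ : Subgroup SL(2, ℤ)} (x j : MF Γ) (hx : Rq x) (hj : Rq j)
    (h : ∀ P : Plk ℂ (MF Γ), x ∈ P.1 → j ∈ P.1) : Itg (x : Mer) j := by
  obtain ⟨n, s, c, e⟩ := itg0 (MF Γ).val h
  exact ⟨n, s, desc _ (fun i => (hx.pow _).mul (hj.pow _)) (hj.pow _) c e⟩

/-! ### functions over the algebraic numbers -/

theorem g_le (N : ℕ) : Gamma N ≤ Gamma0 N := fun γ h => Gamma0_mem.2 (Gamma_mem.1 h).2.2.1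

theorem Rq.alg {s : LS} (h : RatS s) : P027M.M.Alg s := fun n =>
  let ⟨r, e⟩ := h n; ⟨r, e.trans (map_ratCast io r).symm⟩

theorem Rq.fs {N : ℕ} (hN : 0 < N) {x : Mer} (m : x ∈ MF (Gamma0 N)) (h : Rq x) : x ∈ FS :=
  let ⟨_, a, b⟩ := h
  ⟨N, hN, MF_mono (g_le N) m, _, by
    simpa only [one_mul] using P027M.M.exM_period hN one_ne_zero a, (Rq.alg b).sb N hN⟩

theorem Rq.gal {x : FF} (h : Rq (cv x)) (X : Mdl) (g : GQ) : X.gal g x = x :=
  let ⟨s, a, b⟩ := h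
  P027M.M.cv_inj ((X.gal_spec g x).unique ⟨1, one_pos, s, s, a, a, fun n =>
    let ⟨r, e⟩ := b n; ⟨r, e.trans (map_ratCast io r).symm, by rw [map_ratCast, map_ratCast, e]⟩⟩)

theorem mem_L {Γ : Subgroup SL(2, ℤ)} {x : FF} (h : cv x ∈ MF Γ) : x ∈ L Γ :=
  fun _ k => act_eq_self h k

/-! ### the universal point -/

variable {N : ℕ} {G I : ℍ → ℂ} {a : ℕ → ℤ} {A B : ℤ} {w : ℕ} {Λ : Submodule ℤ ℂ}

section mer

variable {x y : Mer} (h : RN N G a) (p : Pw N a A B w Λ I x y)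

include p

theorem Pw.hD : 4 * (A : ℚ) ^ 3 + 27 * (B : ℚ) ^ 2 ≠ 0 := by exact_mod_cast p.disc

theorem Pw.I_eq' : I = (w : ℂ)⁻¹ • Pr fun n => (a n : ℂ) :=
  funext fun z => by rw [p.I_eq, div_eq_inv_mul]; rfl

theorem Pw.ux : ∃ ex : ℂ →+ Ep ℂ A B, Ux Λ (a := ((A : ℚ) : ℂ)) (b := ((B : ℚ) : ℂ)) ex :=
  ex_ux p.lat (by simpa using p.g2_eq) (by simpa using p.g3_eq) (cd (k := ℂ) p.hD ℂ).hD

include h

theorem Pw.prim : Prim ((w : ℂ)⁻¹ • G) I :=
  p.I_eq' ▸ (EF.prim_Pr h.qe (by simp [h.zero])).smul _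

theorem Pw.wp : Wp Λ I x := ⟨p.lat, (p.prim h).hol, fun c e => by
  obtain ⟨-, -, -, -, -, -, t⟩ := Co.sol h.s2 h.qe (by simp [h.zero]) (by simp [h.one]) p.lat
  refine nc_of t (c * w) (funext fun τ => ?_)
  rw [← congrFun e τ, p.I_eq, div_mul_cancel₀ _ (Nat.cast_ne_zero.2 p.wpos.ne')], p.xv⟩

theorem Pw.ns : (crv ((A : ℚ) : Mer) ((B : ℚ) : Mer)).Nonsingular x y := by
  refine (equation_iff_nonsingular_of_Δ_ne_zero (cd (k := ℂ) p.hD Mer).d1).1 ?_
  rw [equation_iff]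
  obtain ⟨τ, n⟩ : ∃ τ, I τ ∉ Λ := by
    obtain ⟨τ, k, l⟩ := ((Bo.fr_ne UpperHalfPlane.I).and_eventually
      (Ar.Fn.ev_reg UpperHalfPlane.I x)).exists
    exact ⟨τ, fun e => (p.wp h).pole e (l k)⟩
  refine Ar.Fn.eq_of_ev (τ := τ) ((((Ar.Ae.cont (p.wp h).hol).tendsto τ).eventually
    (p.lat.notMem_nhds n)).mono fun z n _ => ?_)
  obtain ⟨x1, x2⟩ := Ar.Fn.val_ev (p.xv z n)
  obtain ⟨y1, y2⟩ := Ar.Fn.val_ev (p.yv z n)
  have c := reg_const z
  have := p.lat.ode n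
  rw [p.g2_eq, p.g3_eq] at this
  simp only [zero_mul, add_zero, ← map_ratCast (algebraMap ℂ Mer), pow_three, sq]
  rw [ev_add ((x1.mul (x1.mul x1)).add ((c _).mul x1)) (c _), ev_add (x1.mul (x1.mul x1))
    ((c _).mul x1), ev_mul x1 (x1.mul x1), ev_mul x1 x1, ev_mul y1 y1, ev_mul (c _) x1, x2, y2,
    ev_const, ev_const]
  push_cast
  linear_combination this / 4

end mer

/-- poles at all cusps -/
theorem ParY.itg {x y : Mer} (h : RN N G a) (p : ParY N a A B w I x y) : Itg x jM := by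
  have : NeZero N := ⟨h.pos.ne'⟩
  obtain ⟨_, _, _, _, _, q⟩ := p.par
  refine itg_of ⟨x, p.xm⟩ (jG _) p.xq jq fun P k => (j_mem P).2 ((all_pl P).resolve_right ?_)
  rintro ⟨g, rfl⟩
  exact ((p.wp h).cusp (Es.tend h q g)).2 (Es.cv_mem I g) k

/-- the value at `τ` -/
def rq {a b : ℚ} (hD : 4 * a ^ 3 + 27 * b ^ 2 ≠ 0) (τ : ℍ) : Pm FF a b →+ Ep ℂ a b :=
  AddMonoidHom.comp (N := Pm Mer a b)
    (@rd _ _ _ _ (fun _ _ => Classical.propDecidable _) (cd (k := ℂ) hD Mer) τ) (mq (cv : FF →+* Mer))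

theorem rq_ext {a b : ℚ} (hD : 4 * a ^ 3 + 27 * b ^ 2 ≠ 0) {ξ η : Pm FF a b}
    (e : ∀ τ, rq hD τ ξ = rq hD τ η) : ξ = η :=
  mq_inj _ (@rd_ext _ _ _ _ (fun _ _ => Classical.propDecidable _) (cd (k := ℂ) hD Mer) _ _ e)

/-- pull-back of points -/
def pq (X : Mdl) {a b : ℚ} (α : M2) (hα : 0 < α.det) : Pm FF a b →+ Pm FF a b :=
  mq (X.pb α hα : FF →+* FF)

theorem rq_pq {a b : ℚ} (hD : 4 * a ^ 3 + 27 * b ^ 2 ≠ 0) (X : Mdl) {α : M2} (hα : 0 < α.det)
    (τ : ℍ) (ξ : Pm FF a b) : rq hD τ (pq X α hα ξ) = rq hD (mb α τ) ξ := by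
  have e : mq (cv : FF →+* Mer) (pq X α hα ξ) =
      mq (pbz α hα : Mer →+* Mer) (mq (cv : FF →+* Mer) ξ) :=
    (mq_mq _ _ ((cv : FF →+* Mer).comp (X.pb α hα : FF →+* FF)) (fun _ => rfl) ξ).trans
      (mq_mq _ _ _ (X.pb_coe α hα) ξ).symm
  rw [show mb α τ = gl α hα • τ from
    UpperHalfPlane.ext ((Ar.coe_mb hα τ).trans (coe_gl_smul α hα τ).symm)]
  exact (congrArg _ e).trans 
    (@rd_pb _ _ _ _ (fun _ _ => Classical.propDecidable _) (cd (k := ℂ) hD Mer) _ _ τ _)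

section ff

variable {x y : FF} (h : RN N G a) (p : Pw N a A B w Λ I (cv x) (cv y))

include h p

theorem Pw.nsF : (crv ((A : ℚ) : FF) ((B : ℚ) : FF)).Nonsingular x y := by
  have := p.ns h
  rwa [← P004M.TE.crv_map (cv : FF →+* Mer) (map_ratCast _ _) (map_ratCast _ _),
    ← RingHom.coe_coe, map_nonsingular _ (cv : FF →+* Mer).injective] at this

/-- **the universal point** -/
noncomputable def Pw.xi : Pm FF A B := .some x y (p.nsF h)

theorem Pw.rq_xi {ex : ℂ →+ Ep ℂ A B} (u : Ux Λ (a := ((A : ℚ) : ℂ)) (b := ((B : ℚ) : ℂ)) ex)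
    (τ : ℍ) : rq p.hD τ (p.xi h) = ex (I τ) :=
  letI : DecidableEq Mer := fun _ _ => Classical.propDecidable _
  (congrArg _ (mp_some _ _ _ _)).trans ((p.wp h).rd (cd (k := ℂ) p.hD Mer) p.yv u _ τ)

theorem Pw.fix {s : FF →+* FF} (hx : s x = x) (hy : s y = y) : mq s (p.xi h) = p.xi h :=
  mp_id _ _ _ _ hx hy

theorem Pw.gal (X : Mdl) (g : GQ) : mq (X.gal g : FF →+* FF) (p.xi h) = p.xi h :=
  p.fix h (Rq.gal p.xq X g) (Rq.gal p.yq X g)

theorem Pw.pg (X : Mdl) {γ : SL(2, ℤ)} (k : γ ∈ Gamma0 N) :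
    mq (X.pg γ : FF →+* FF) (p.xi h) = p.xi h :=
  p.fix h ((P027M.M.Hec.mem_L_iff X).1 (mem_L p.xm) γ k) ((P027M.M.Hec.mem_L_iff X).1 (mem_L p.ym) γ k)

/-- **linear relations** -/
theorem Pw.rel (X : Mdl) {ι : Type} (s : Finset ι) {α : ι → M2} (hα : ∀ i, 0 < (α i).det)
    (n : ι → ℤ) (c : ℤ) : ∑ i ∈ s, n i • pq X (α i) (hα i) (p.xi h) = c • p.xi h ↔
      ∀ τ, ∑ i ∈ s, n i * I (mb (α i) τ) - c * I τ ∈ Λ := by
  obtain ⟨ex, u⟩ := p.ux
  have ker : ∀ z, ex z = 0 ↔ z ∈ Λ := u.ker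
  have k : ∀ τ, rq p.hD τ (∑ i ∈ s, n i • pq X (α i) (hα i) (p.xi h)) = rq p.hD τ (c • p.xi h) ↔
      ∑ i ∈ s, n i * I (mb (α i) τ) - c * I τ ∈ Λ := fun τ => by
    simp only [← ker, map_sub, map_sum, map_zsmul, ← zsmul_eq_mul, rq_pq, p.rq_xi h u]
    exact sub_eq_zero.symm
  exact ⟨fun e τ => (k τ).1 (congrArg _ e), fun e => rq_ext p.hD fun τ => (k τ).2 (e τ)⟩

/-- **Hecke operators at good primes** -/
theorem Pw.heckeT (X : Mdl) {l : ℕ} (hl : l.Prime) (k : ¬ l ∣ N) {d : SL(2, ℤ)} (hd : d ∈ Gamma0 N) :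
    ∑ i, pq X (H231.L3.al 1 l d i) (al_pos hl.pos d i) (p.xi h) = a l • p.xi h := by
  have e : ∀ z, ∑ j, I (mb (H461.al l j) z) = a l * I z := fun z => by
    rw [← Ar.Tdiv_eq hl, p.I_eq', map_smul, Ar.tdiv_Pr hl h.qe,
      show Tc l (fun n => (a n : ℂ)) = (a l : ℂ) • fun n => (a n : ℂ) from funext (h.te l hl k),
      Ar.Pr_smul, smul_comm]
    rfl
  simpa only [one_smul] using (p.rel h X Finset.univ (al_pos hl.pos d) (fun _ => 1) (a l)).2 fun τ => by
    rw [← e τ, Fintype.sum_option, Fintype.sum_option]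
    simp only [Int.cast_one, one_mul, H231.L3.al, H461.al, add_sub_add_right_eq_sub]
    exact (Ar.mb_al hl d none τ).symm ▸ p.inv d hd _

/-- **Hecke operators at bad primes** -/
theorem Pw.heckeU (X : Mdl) {l : ℕ} (hl : l.Prime) (k : l ∣ N) :
    ∑ j : Fin l, pq X (H231.L3.al 1 l 1 (some j)) (al_pos hl.pos 1 _) (p.xi h) = a l • p.xi h := by
  obtain ⟨ε, nf⟩ := Ar.nf_of_rn h
  have l0 : (l : ℂ) ≠ 0 := Nat.cast_ne_zero.2 hl.ne_zero
  simpa only [one_smul] using (p.rel h X Finset.univ (fun j : Fin l => al_pos hl.pos 1 (some j))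
    (fun _ => 1) (a l)).2 fun τ => by
    have q := (H461.qe_U (Ar.qe_Pr h.qe) l hl.pos τ).mul_left (l : ℂ)
    have q' := (Ar.qe_Pr h.qe τ).mul_left (a l : ℂ)
    have e := q.unique (q'.congr_fun fun n => by
      have : (a (l * n) : ℂ) = a l * a n := by exact_mod_cast nf.bad l hl k n
      beta_reduce
      rw [this]
      push_cast
      field_simp)
    rw [Finset.sum_apply, Finset.mul_sum] at e
    simp only [p.I_eq, Int.cast_one, one_mul, ← Finset.sum_div, ← mul_div_assoc, ← e]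
    rw [← sub_div, ← Finset.sum_sub_distrib, Finset.sum_eq_zero fun j _ => by
      rw [H461.sl_U _ l hl.pos _ τ (mb (H231.L3.al 1 l 1 (some j)) τ) (by
        rw [Ar.coe_mb (al_pos hl.pos 1 _)]; simp [H231.L3.al]), mul_inv_cancel_left₀ l0, sub_self],
      zero_div]
    exact zero_mem _

end ff

section Y

variable {x y : FF} (h : RN N G a) (p : ParY N a A B w I (cv x) (cv y))

include h p

theorem ParY.itgF {j : FF} (hj : cv j = jM) : Itg x j :=
  (itg_map (cv : FF →+* Mer)).1 (show Itg (cv x) (cv j) from hj ▸ p.itg h)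

/-- **the cusps go to the origin**, on any field above -/
theorem ParY.sq_cusp {k M M' : Type} [Field k] [CharZero k] [Field M] [Field M'] [Algebra k M]
    [CFF k M] (φ : FF →+* M') (ψ : M →+* M') {ξ : Pm M A B} (e : mq ψ ξ = mq φ (p.toPw.xi h))
    {j' : FF} (hj : cv j' = jM) {j : M} (ej : ψ j = φ j') (P : Plk k M) (n : j ∉ P.1) :
    Ts.sq p.toPw.hD P ξ = 0 := by
  rcases ξ with _ | ⟨u, v, m⟩
  · exact map_zero _
  have e' := ((mp_some _ _ _ _).symm.trans e).trans (mp_some _ _ _ _)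
  injection e' with e1 e2
  refine sp_pole _ m (Itg.pole ((itg_map ψ).1 ?_) P n)
  rw [e1, ej]
  exact (itg_map φ).2 (p.itgF h hj)

/-- **every linear relation between the slashed forms holds for the points** -/
theorem ParY.rel (X : Mdl) {ι : Type} (s : Finset ι) {α : ι → M2} (hα : ∀ i, 0 < (α i).det)
    (n : ι → ℤ) (c : ℤ) (e : ∑ i ∈ s, (n i : ℂ) • H461.sl G (α i) = (c : ℂ) • G) :
    ∑ i ∈ s, n i • pq X (α i) (hα i) (p.toPw.xi h) = c • p.toPw.xi h := by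
  obtain ⟨_, _, _, _, _, q⟩ := p.par
  have P := p.toPw.prim h
  have k := Prim.sum s fun i _ => (P.comp (H461.gl _ (hα i))
    (by simpa using H461.gl_det_pos _ (hα i))).smul (n i)
  rw [show ∑ i ∈ s, _ = (c : ℂ) • (w : ℂ)⁻¹ • G by
    rw [smul_comm (c : ℂ), ← e, Finset.smul_sum]
    refine Finset.sum_congr rfl fun i _ => ?_
    rw [smul_comm (w : ℂ)⁻¹, ← H461.sl_pos _ _ (hα i), H461.sl_smul]] at k
  obtain ⟨C, hC⟩ := k.exists_sub (P.smul c)
  have hC' : ∀ τ, ∑ i ∈ s, n i * I (mb (α i) τ) - c * I τ = C := fun τ => by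
    simpa [mb, hα] using hC τ
  choose g r t d pos eg using fun i => H461.hermite _ (hα i)
  have t1 : ∀ i, Tendsto (fun τ => I (mb (α i) τ)) atImInfty (𝓝 (Es.cv I (g i))) := fun i => by
    have u : 0 < (!![r i, t i; 0, d i] : M2).det := by simpa [Matrix.det_fin_two_of] using pos i
    refine ((Es.tend h q (g i)).comp (Es.mb_top u (by simp))).congr fun τ => ?_
    rw [eg i, Ar.mb_mul (by simp) u, Ar.mb_SL]
    rfl
  haveI := Es.neBot
  have t2 := (tendsto_finsetSum s fun i _ => (t1 i).const_mul (n i : ℂ)).sub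
    (((Es.tend h q 1).congr fun τ => by rw [one_smul]).const_mul (c : ℂ))
  simp only [hC'] at t2
  refine (p.toPw.rel h X s hα n c).2 fun τ => ?_
  rw [hC', tendsto_nhds_unique tendsto_const_nhds t2]
  simp only [← zsmul_eq_mul]
  exact sub_mem (Submodule.sum_mem _ fun i _ => Submodule.smul_mem _ _ (Es.cv_mem I _))
    (Submodule.smul_mem _ _ (Es.cv_mem I _))

/-- Atkin and Lehner -/
theorem ParY.al (X : Mdl) {Q : ℕ} {ε u v s t : ℤ} (e : ALw N Q G ε)
    (d : (Q * u) * (Q * t) - v * (N * s) = (Q : ℤ))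
    (hα : 0 < (!![Q * u, v; N * s, Q * t] : M2).det) :
    pq X _ hα (p.toPw.xi h) = ε • p.toPw.xi h := by
  have d' : (!![Q * u, v; N * s, Q * t] : M2).det = Q := by rw [Matrix.det_fin_two_of, d]
  have q : (Q : ℂ) ≠ 0 := by exact_mod_cast (d' ▸ hα).ne'
  simpa using p.rel h X (Finset.univ (α := Unit)) (fun _ => hα) (fun _ => 1) ε (funext fun z => by
    have n : (N : ℂ) * s * z + Q * t ≠ 0 := by
      simpa [denom, H461.gl_coe] using denom_ne_zero (H461.gl _ hα) z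
    simp only [Finset.univ_unique, Finset.sum_singleton, Int.cast_one, one_smul, Pi.smul_apply]
    rw [H461.sl_apply G _ hα z _ (H461.coe_smul_gl _ hα z), e u v s t d z _
      ((H461.coe_smul_gl _ hα z).trans (by simp)), d']
    simp
    field_simp)

end Y

/-- **existence over the algebraic numbers** -/
theorem ex_parF (h : RN N G a) : ∃ A B w I, ∃ x y : FF, ParY N a A B w I (cv x) (cv y) :=
  let ⟨A, B, w, I, x, y, p⟩ := ex_parY h
  ⟨A, B, w, I, mkF x (Rq.fs h.pos p.xm p.xq), mkF y (Rq.fs h.pos p.ym p.yq), p⟩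

end Vale.Agent.P014T.Pu
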