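import Vale.Agent.P014T.Pu.An
import Vale.Agent.P014T.Es.Md
import Vale.Agent.P004Z.Ar.Act
import Vale.Agent.P004Z.Ar.Unf
import Vale.Agent.P004Z.EF.All

/-! # P014, block PUSH: the curve of the lattice of all modular symbols -/

set_option autoImplicit false
set_option linter.all false

open UpperHalfPlane CongruenceSubgroup Filter Topology PowerSeries
open scoped MatrixGroups

noncomputable section

namespace Vale.Agent.P014T.Pu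

open P004N Vale.Agent.P022 Vale.Agent.P022.H218.L3 Vale.Agent.P022.H236.L3
  Vale.Agent.P022.H542.L3 Vale.Agent.P027M.ES Vale.Agent.P019P P025H492
open Vale.Agent.P004Z Vale.Agent.P004Z.EF Vale.Agent.P004Z.EF.Co Vale.Agent.P004Z.EF.Al
open Vale.Agent.P004Z.Ar.Fn (LR cp jG mem_cp all_pl j_mem j_not cff)
open Vale.Agent.P027H (IsLat wp dwp g2 g3 scl hom_scl)
open Vale.Agent.P027M.M (IsAut)
open Vale.Agent.P014T.Es (cv LL)

/-- a modular parametrisation with any lattice which contains the periods -/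
structure Pw (N : ℕ) (a : ℕ → ℤ) (A B : ℤ) (w : ℕ) (Λ : Submodule ℤ ℂ) (I : ℍ → ℂ) (x y : Mer) :
    Prop where
  wpos : 0 < w
  I_eq : ∀ τ, I τ = Pr (fun n => (a n : ℂ)) τ / w
  lat : IsLat Λ
  inv : ∀ γ ∈ Gamma0 N, ∀ τ, I (γ • τ) - I τ ∈ Λ
  g2_eq : g2 Λ = -4 * A
  g3_eq : g3 Λ = -4 * B
  disc : 4 * A ^ 3 + 27 * B ^ 2 ≠ 0
  xm : x ∈ MF (Gamma0 N)
  ym : y ∈ MF (Gamma0 N)
  xv : ∀ τ, I τ ∉ Λ → EF.Val τ x (wp Λ (I τ))
  yv : ∀ τ, I τ ∉ Λ → EF.Val τ y (dwp Λ (I τ) / 2)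
  xq : ∃ s, ExM 1 s x ∧ RatS s
  yq : ∃ s, ExM 1 s y ∧ RatS s
  mat : {p : ℕ | p.Prime ∧ EF.al A B p ≠ a p}.Finite

/-- **the parametrisation of `ℂ / LL I`**: all cusps go to the origin -/
structure ParY (N : ℕ) (a : ℕ → ℤ) (A B : ℤ) (w : ℕ) (I : ℍ → ℂ) (x y : Mer) : Prop
    extends Pw N a A B w (LL I) I x y where
  par : ∃ A' B' Λ x' y', Par N a A' B' w Λ I x' y'

variable {N : ℕ} {f F G : ℍ → ℂ} {M : Submodule ℤ ℂ} {a : ℕ → ℤ}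

theorem par_fn' [NeZero N] (hf : S2 N f) (hF : Prim f F) (le : Lam N F ≤ M) {W : ℂ → ℂ}
    (hW : ∀ z, MeromorphicAt W z) (hp : ∀ z w, z - w ∈ M → W z = W w)
    (ha : ∀ z, z ∉ M → AnalyticAt ℂ W z) :
    ∃ x ∈ MF (Gamma0 N), ∀ τ, F τ ∉ M → EF.Val τ x (W (F τ)) := by
  obtain ⟨n, hn, hw⟩ := Inj.exists_width (Gamma0 N)
  obtain ⟨x, hx, e⟩ := quot (Gamma0 N) (fun τ => W (F τ))
    (fun γ hγ τ => hp _ _ (le (per_mem hf hF hγ τ)))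
    (fun τ => (hW _).comp_analyticAt (Qt.an hF.hol τ)) fun g => by
      obtain ⟨φ, hφ, e⟩ := cusp_fn hf hF hn (hw g)
      exact ⟨n, W ∘ φ, hn, (hW _).comp_analyticAt hφ, fun τ => congrArg W (e τ)⟩
  exact ⟨x, hx, fun τ hτ => e τ ((ha _ hτ).comp_of_eq (Qt.an hF.hol τ) (by simp))⟩

theorem nc_of (t : Tendsto F atImInfty (𝓝[≠] 0)) (c : ℂ) : F ≠ fun _ => c := by
  rintro rfl
  haveI := Es.neBot
  obtain ⟨h1, h2⟩ := tendsto_nhdsWithin_iff.1 t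
  exact h2.exists.elim fun _ e => e (tendsto_nhds_unique tendsto_const_nhds h1)

/-- the lattice `M` is contained in its conjugates -/
def Rig (N : ℕ) (F : ℍ → ℂ) (M : Submodule ℤ ℂ) : Prop :=
  ∀ (σ : ℂ ≃+* ℂ) M' (x x' : MF (Gamma0 N)), Wp M F x → Wp M' F x' → IsAut 1 σ x x' →
    Lam N F ≤ M' → M ≤ M'

theorem core' (h : RN N f a) (hF : F = Pr fun n => (a n : ℂ)) (hM : IsLat M) (le : Lam N F ≤ M)
    (H : Rig N F M) :
    ∃ (x y : Mer) (u v : ℂ⟦X⟧), x ∈ MF (Gamma0 N) ∧ y ∈ MF (Gamma0 N) ∧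
      (∀ τ, F τ ∉ M → EF.Val τ x (wp M (F τ))) ∧ (∀ τ, F τ ∉ M → EF.Val τ y (dwp M (F τ))) ∧
      ExM 1 (ls (-2) u) x ∧ ExM 1 (ls (-3) v) y ∧
      Sol (g2 M) (g3 M) (PowerSeries.mk fun n => (a (n + 1) : ℂ)) u v ∧
      (∃ r : ℚ, g2 M = r) ∧ (∃ r : ℚ, g3 M = r) ∧ RatS (ls (-2) u) ∧ RatS (ls (-3) v) := by
  have : NeZero N := ⟨h.pos.ne'⟩
  have hf := h.s2
  have hq := h.qe
  have c0 : ((a 0 : ℤ) : ℂ) = 0 := by simp [h.zero]
  have c1 : ((a 1 : ℤ) : ℂ) = 1 := by simp [h.one]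
  have hP : Prim f F := hF ▸ prim_Pr hq c0
  obtain ⟨x, hx, vx⟩ := par_fn' hf hP le hM.mer_wp (fun z w => hM.wp_congr) fun z => hM.analyticAt_wp
  obtain ⟨y, hy, vy⟩ := par_fn' hf hP le hM.mer_dwp (fun z w => hM.dwp_congr)
    fun z => hM.analyticAt_dwp
  obtain ⟨u, v, hs, eu, ev, k, t⟩ := sol hf hq c0 c1 hM
  rw [← hF] at eu ev k t
  have ex := exM_of_val hx eu (k.mono vx)
  have hm : ∀ σ : ℂ ≃+* ℂ, Sol (σ (g2 M)) (σ (g3 M))
      (PowerSeries.mk fun n => (a (n + 1) : ℂ)) (map (σ : ℂ →+* ℂ) u) (map (σ : ℂ →+* ℂ) v) :=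
    fun σ => by
      have k := hs.map (σ : ℂ →+* ℂ)
      rwa [show map (σ : ℂ →+* ℂ) (PowerSeries.mk fun n => (a (n + 1) : ℂ)) =
        PowerSeries.mk fun n => (a (n + 1) : ℂ) by ext n; simp] at k
  have hr := rigid hM fun σ Λ' h' e2 e3 => by
    obtain ⟨u', v', hs', eu', -, k1, k'⟩ := sol hf hq c0 c1 h'
    rw [← hF] at eu' k' k1
    rw [e2, e3] at hs'
    obtain ⟨x', hx', ex'⟩ := conj_ex N (NeZero.pos N) x hx _ ex σ
    rw [cm_ls, ((hm σ).unique hs').1] at ex'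
    have l := le_of hf hP h' hx' ex' eu' k'
    obtain ⟨z, hz, vz⟩ := par_fn' hf hP l h'.mer_wp (fun z w => h'.wp_congr)
      fun z => h'.analyticAt_wp
    refine H σ Λ' ⟨x, hx⟩ ⟨z, hz⟩ ⟨hM, hP.hol, nc_of t, vx⟩ ⟨h', hP.hol, nc_of t, vz⟩ ⟨_, ex, ?_⟩ l
    rw [cm_ls, ((hm σ).unique hs').1]
    exact exM_of_val hz eu' (k1.mono vz)
  have hu : ∀ σ : ℂ ≃+* ℂ, map (σ : ℂ →+* ℂ) u = u ∧ map (σ : ℂ →+* ℂ) v = v := fun σ => by
    have := hm σ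
    rw [(hr σ).1, (hr σ).2] at this
    exact this.unique hs
  refine ⟨x, y, u, v, hx, hy, vx, vy, ex, exM_of_val hy ev (k.mono vy), hs,
    P027H.rat_of_fixed fun σ => (hr σ).1, P027H.rat_of_fixed fun σ => (hr σ).2,
    fun n => P027H.rat_of_fixed fun σ => ?_, fun n => P027H.rat_of_fixed fun σ => ?_⟩
  · rw [← coeff_cm, cm_ls, (hu σ).1]
  · rw [← coeff_cm, cm_ls, (hu σ).2]

theorem mk_pw (h : RN N f a) (hF : F = Pr fun n => (a n : ℂ)) (hL : IsLat M) (le : Lam N F ≤ M)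
    (H : Rig N F M) : ∃ w0 : ℕ, 0 < w0 ∧ ∀ w : ℕ, 0 < w → w0 ∣ w →
      ∃ A B x y, Pw N a A B w (scl (w : ℂ)⁻¹ M) (fun τ => (w : ℂ)⁻¹ * F τ) x y := by
  obtain ⟨x, y, u, v, hx, hy, vx, vy, ex, ey, hs, ⟨r, hr⟩, ⟨s, hs'⟩, ru, rv⟩ := core' h hF hL le H
  obtain ⟨ε, nf⟩ := Ar.nf_of_rn h
  have hP : Prim f F := hF ▸ prim_Pr h.qe (by simp [h.zero])
  refine ⟨2 * r.den * s.den, Nat.mul_pos (Nat.mul_pos two_pos r.pos) s.pos, fun w wp0 ⟨m, ew⟩ => ?_⟩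
  have w0 : (w : ℂ) ≠ 0 := Nat.cast_ne_zero.2 wp0.ne'
  have e1 : (r.den : ℂ) * r = r.num := by exact_mod_cast Rat.den_mul_eq_num r
  have e2 : (s.den : ℂ) * s = s.num := by exact_mod_cast Rat.den_mul_eq_num s
  obtain ⟨A, hA⟩ : ∃ A : ℤ, (w : ℂ) ^ 4 * g2 M = (-4 * A : ℤ) :=
    ⟨-4 * r.den ^ 3 * s.den ^ 4 * r.num * m ^ 4, by simp only [ew, hr]; push_cast; rw [← e1]; ring⟩
  obtain ⟨B, hB⟩ : ∃ B : ℤ, (w : ℂ) ^ 6 * g3 M = (-4 * B : ℤ) :=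
    ⟨-16 * r.den ^ 6 * s.den ^ 5 * s.num * m ^ 6, by
      simp only [ew, hs']; push_cast; rw [← e2]; ring⟩
  have hm := hom_scl (inv_ne_zero w0) M
  have k2 : g2 (scl (w : ℂ)⁻¹ M) = -4 * A := by rw [hm.g2, inv_inv, hA]; push_cast; rfl
  have k3 : g3 (scl (w : ℂ)⁻¹ M) = -4 * B := by rw [hm.g3, inv_inv, hB]; push_cast; rfl
  have hd : 4 * A ^ 3 + 27 * B ^ 2 ≠ 0 := fun e => (hm.isLat hL).disc_ne (by
    have : (4 : ℂ) * A ^ 3 + 27 * B ^ 2 = 0 := by exact_mod_cast e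
    rw [k2, k3]
    linear_combination this)
  refine ⟨A, B, algebraMap ℂ Mer ((w ^ 2 : ℚ) : ℂ) * x, algebraMap ℂ Mer ((w ^ 3 / 2 : ℚ) : ℂ) * y,
    wp0, fun τ => by rw [hF, div_eq_inv_mul], hm.isLat hL, fun γ k τ => ?_, k2, k3, hd,
    mul_mem (IntermediateField.algebraMap_mem _ _) hx,
    mul_mem (IntermediateField.algebraMap_mem _ _) hy, fun τ hτ => ?_, fun τ hτ => ?_,
    ⟨_, (ExM.const 1 _).mul ex, ru.smul _⟩, ⟨_, (ExM.const 1 _).mul ey, rv.smul _⟩, ?_⟩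
  · rw [← mul_sub]
    exact (hm.2 _).1 (le (per_mem h.s2 hP k τ))
  · convert (vx τ (mt (hm.2 _).1 hτ)).smul _ using 1
    rw [hm.wp, inv_inv]
    push_cast
    rfl
  · convert (vy τ (mt (hm.2 _).1 hτ)).smul _ using 1
    rw [hm.dwp, inv_inv]
    push_cast
    ring
  · obtain ⟨-, D, hD, iu⟩ := rat N h.pos x hx _ ex ru
    obtain ⟨-, E, hE, iv⟩ := rat N h.pos y hy _ ey rv
    obtain ⟨C, δ, -, hδ, hb⟩ := pfPowN N f _ ε nf
    have h0 : 0 < w * D * E := Nat.mul_pos (Nat.mul_pos wp0 hD) hE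
    have := (small hδ hb).and ((eventually_gt_atTop (w * D * E)).and
      (eventually_gt_atTop (2 * (4 * A ^ 3 + 27 * B ^ 2)).natAbs))
    rw [← Nat.cofinite_eq_atTop] at this
    refine (Filter.eventually_cofinite.1 this).subset fun p ⟨hp, ne⟩ ⟨h1, h2, h3⟩ => ne ?_
    have := Fact.mk hp
    have h4 : ¬ (p : ℤ) ∣ 2 * (4 * A ^ 3 + 27 * B ^ 2) := fun e => (Nat.le_of_dvd
      (Int.natAbs_pos.2 (mul_ne_zero two_ne_zero hd)) (Int.natCast_dvd.1 e)).not_gt h3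
    refine h1 _ ?_ (congr_p hs hA hB (fun n => coeff_ls (-2) u n ▸ iu _)
      (fun n => coeff_ls (-3) v n ▸ iv _) h0 (fun e => (Nat.le_of_dvd h0 e).not_gt h2) h4)
    rw [show EF.al A B p = _ from P004M.TE.al_eq h4, neg_sq]
    exact P004M.TE.cs_le h4

theorem jq : ∃ s, ExM 1 s jM ∧ RatS s :=
  let ⟨V, _, k⟩ := EF.Gn.exJ
  ⟨_, k, fun n => let ⟨z, e⟩ := coeff_ls_int V (-1) n; ⟨z, e.trans (Rat.cast_intCast z).symm⟩⟩

/-- the lattice of the values at the cusps is rigid -/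
theorem rig_LL (hN : 0 < N) (t : ∀ g : SL(2, ℤ), Tendsto (fun z => F (g • z)) atImInfty (𝓝 (cv F g))) :
    Rig N F (LL F) := fun σ M' x x' w w' e _ => Submodule.span_le.2 (by
  have : NeZero N := ⟨hN.ne'⟩
  have := cff (Gamma0 N)
  rintro _ ⟨g, rfl⟩
  obtain ⟨c, hc⟩ := P004K.ex_aut one_pos (Ar.ex_aut0 hN) σ
  obtain rfl : c x = x' := Subtype.ext (P004K.aut_uniq one_pos (hc x) e)
  have cj : c (jG _) = jG _ := Subtype.ext (P004K.aut_uniq one_pos (hc _)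
    (jq.elim fun _ k => P004K.aut_rat k.1 k.2 σ))
  have m : ∀ z, z ∈ ((plEquiv c σ fun a => Subtype.ext (P004K.aut_uniq one_pos (hc _)
      (P027M.M.Bc.aut_const 1 σ a))).symm (cp _ g)).1 ↔ c z ∈ (cp _ g).1 := fun z => Iff.rfl
  generalize (plEquiv c σ _).symm (cp _ g) = P at m
  obtain ⟨g', rfl⟩ := (all_pl P).resolve_left fun k =>
    j_not g⁻¹ (show jG _ ∈ (cp (Gamma0 N) g).1 from cj ▸ (m _).1 ((j_mem P).2 k))
  exact (w'.cusp (t g)).1 fun k => (w.cusp (t g')).2 (Es.cv_mem F g') ((m x).2 k))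

theorem cv_scl {c : ℂ} (t : ∀ g : SL(2, ℤ), Tendsto (fun z => F (g • z)) atImInfty (𝓝 (cv F g)))
    (c0 : c ≠ 0) : LL (fun z => c * F z) = scl c (LL F) := by
  have e : ∀ g, cv (fun z => c * F z) g = c * cv F g := fun g => Es.cv_eq ((t g).const_mul c)
  refine le_antisymm (Submodule.span_le.2 ?_) fun z k => ?_
  · rintro _ ⟨g, rfl⟩
    exact e g ▸ ((hom_scl c0 _).2 _).1 (Es.cv_mem F g)
  · rw [← mul_inv_cancel_left₀ c0 z]
    rw [P027H.mem_scl] at k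
    generalize c⁻¹ * z = u at k
    induction k using Submodule.span_induction with
    | mem _ k => obtain ⟨g, rfl⟩ := k; exact e g ▸ Es.cv_mem _ g
    | zero => simp
    | add _ _ _ _ p q => rw [mul_add]; exact add_mem p q
    | smul c _ _ p => rw [mul_smul_comm]; exact Submodule.smul_mem _ c p

theorem ex_parY (h : RN N G a) : ∃ A B w I x y, ParY N a A B w I x y := by
  have : NeZero N := ⟨h.pos.ne'⟩
  obtain ⟨ε, nf⟩ := Ar.nf_of_rn h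
  obtain ⟨A0, B0, w0, Λ0, I0, x0, y0, p0⟩ := EF.par N G a ε nf
  have hP := prim_Pr h.qe (by simp [h.zero])
  have hL := isLat nf one_pos (fun p _ _ => ⟨a p, rfl⟩) hP
  generalize hF : (Pr fun n => (a n : ℂ)) = F at hP hL
  have n0 : (w0 : ℂ) ≠ 0 := Nat.cast_ne_zero.2 p0.wpos.ne'
  have eF : F = fun z => w0 * I0 z := funext fun z => by
    rw [p0.I_eq, hF, mul_div_cancel₀ _ n0]
  have t : ∀ g : SL(2, ℤ), Tendsto (fun z => F (g • z)) atImInfty (𝓝 (cv F g)) := fun g => by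
    have := (Es.tend h p0 g).const_mul (w0 : ℂ)
    rw [eF, Es.cv_eq this]
    exact this
  have eL : LL F = scl w0 (LL I0) := eF ▸ cv_scl (Es.tend h p0) n0
  have hM : IsLat (LL F) := eL ▸ (hom_scl n0 _).isLat (Es.lat h p0)
  have le : Lam N F ≤ LL F := Submodule.span_le.2 (by
    rintro _ ⟨γ, k, rfl⟩
    rw [eL, eF]
    have := ((hom_scl n0 _).2 _).1 (Es.le h p0 (Es.per_mem h p0 k UpperHalfPlane.I))
    rwa [mul_sub] at this)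
  obtain ⟨w1, p1, k1⟩ := mk_pw h hF.symm hL le_rfl fun _ _ _ _ _ _ _ => id
  obtain ⟨w2, p2, k2⟩ := mk_pw h hF.symm hM le (rig_LL h.pos t)
  have p := Nat.mul_pos p1 p2
  have n : ((w1 * w2 : ℕ) : ℂ) ≠ 0 := Nat.cast_ne_zero.2 p.ne'
  obtain ⟨A', B', x', y', q⟩ := k1 _ p (dvd_mul_right _ _)
  obtain ⟨A, B, x, y, r⟩ := k2 _ p (dvd_mul_left _ _)
  refine ⟨A, B, _, _, x, y, (cv_scl t (inv_ne_zero n)).symm ▸ r, A', B', _, x', y', q.wpos, q.I_eq,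
    q.lat, fun z => ?_, q.g2_eq, q.g3_eq, q.disc, q.xm, q.ym, q.xv, q.yv, q.xq, q.yq, q.mat⟩
  rw [P027H.mem_scl, inv_inv, mem_Lam h.s2 hP]
  refine exists_congr fun γ => and_congr_right fun _ => forall_congr' fun τ => ?_
  rw [← mul_sub, inv_mul_eq_iff_eq_mul₀ n]

end Vale.Agent.P014T.Pu
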