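import Vale.Agent.P014T.Pu.Ad

/-! # P014, block PUSH: pull-back of divisors along a point -/

set_option autoImplicit false
set_option linter.all false

open WeierstrassCurve WeierstrassCurve.Affine Polynomial IntermediateField

noncomputable section

namespace Vale.Agent.P014T.Pu

open Vale.Agent.P019P P025H492 P025H816 P027M.K Vale.Agent.P004H.H666 Vale.Agent.P004M.TE
open Finsupp (single)

variable {k F : Type} [Field k] [Field F] [Algebra k F] {a b : k} {a' b' x y : F} [CFF k F]

/-- a function is determined by its divisor and one value -/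
theorem fn_uq {f g : F} (f0 : f ≠ 0) (g0 : g ≠ 0) (e : dv k f = dv k g) {P : Plk k F} {c : k}
    (c0 : c ≠ 0) (hf : Val P f c) (hg : Val P g c) : f = g := by
  obtain ⟨u, l⟩ := (dv_eq_zero_iff (k := k) (mul_ne_zero f0 (inv_ne_zero g0))).1 (by
    rw [dv_mul f0 (inv_ne_zero g0), dv_inv, e, add_neg_cancel])
  rw [mul_inv_eq_iff_eq_mul₀ g0] at l
  have := hf.unique (l ▸ (Val.const P u).mul hg)
  rw [l, (mul_left_eq_self₀.1 this.symm).resolve_right c0, map_one, one_mul]

/-- the sum of a formal sum of points -/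
def sm (A : Type) [AddCommGroup A] : (A →₀ ℤ) →+ A :=
  (Finsupp.linearCombination ℤ id).toAddMonoidHom

theorem sm_single {A : Type} [AddCommGroup A] (R : A) (m : ℤ) : sm A (single R m) = m • R :=
  Finsupp.linearCombination_single _ _ _

variable [DecidableEq k] [DecidableEq F] (h : Cd a b a' b') (n : (crv a' b').Nonsingular x y)

theorem S_map (g : Gn k x y) (ν : (crv a b).Point →₀ ℤ) :
    S h (.some x y n) (ν.mapDomain (pc h n g)) = sm _ ν := by
  induction ν using Finsupp.induction_linear with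
  | zero => simp
  | add D D' e e' => rw [Finsupp.mapDomain_add, map_add, map_add, e, e']
  | single R m => rw [Finsupp.mapDomain_single, S_pc, sm_single]

theorem dg_map {P Q : Type} (f : P → Q) (ν : P →₀ ℤ) : dg (ν.mapDomain f) = dg ν := by
  induction ν using Finsupp.induction_linear with
  | zero => simp
  | add D D' e e' => rw [Finsupp.mapDomain_add, map_add, map_add, e, e']
  | single R m => rw [Finsupp.mapDomain_single, dg_sgl, dg_sgl]

variable (t : Transcendental k x)

open Classical in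
/-- **the pull-back of a formal sum of points** -/
def fB : ((crv a b).Point →₀ ℤ) →+ (Plk k F →₀ ℤ) :=
  haveI := cff_adj (y := y) t
  haveI := fin_adj (y := y) t
  (pull F).comp (Finsupp.mapDomain.addMonoidHom
    (pc (h.sub (adjoin k {x, y})) (h.ns (u := gx k x y) (v := gy k x y) n) (gn_adj t)))

/-- the ramification index over the curve -/
def rm (y : F) (P : Plk k F) : ℕ :=
  haveI := cff_adj (y := y) t
  haveI := fin_adj (y := y) t
  ram (adjoin k {x, y}) P

omit [DecidableEq k] [DecidableEq F] in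
theorem rm_pos (y : F) (P : Plk k F) : 0 < rm t y P :=
  haveI := cff_adj (y := y) t
  haveI := fin_adj (y := y) t
  ram_pos P

theorem ex_sub : ∃ (K : Type) (_ : Field K) (_ : Algebra k K) (_ : Algebra K F)
    (_ : IsScalarTower k K F) (_ : CFF k K) (_ : FiniteDimensional K F) (_ : DecidableEq K) (u v : K)
    (n0 : (crv (algebraMap k K a) (algebraMap k K b)).Nonsingular u v) (g : Gn k u v),
    algebraMap K F u = x ∧ Module.finrank (adjoin k {x, y}) F = Module.finrank K F ∧
    (∀ z, algebraMap K F z ∈ adjoin k {x, y}) ∧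
    (∀ ν, fB h n t ν = pull F (ν.mapDomain (pc (h.up K) n0 g))) ∧ (∀ P, rm t y P = ram K P) ∧
    (∀ P, down K P = pc (h.up K) n0 g (sp h P (.some x y n))) ∧
    ∀ D, S h (.some x y n) D = S (h.up K) (.some u v n0) (push K D) := by
  classical
  haveI := cff_adj (y := y) t
  haveI := fin_adj (y := y) t
  refine ⟨adjoin k {x, y}, _, _, _, inferInstance, ‹_›, ‹_›, inferInstance, gx k x y, gy k x y,
    h.ns n, gn_adj t, rfl, rfl, fun z => z.2, fun _ => rfl, fun _ => rfl, fun P => ?_, fun D => ?_⟩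
  · rw [← mp_gen h n, sp_down (h.sub _) h]
    exact (pc_sp _ _ _ _).symm
  · rw [← mp_gen h n, S_push (h.sub _) h]

theorem fB_apply (ν : (crv a b).Point →₀ ℤ) (P : Plk k F) :
    fB h n t ν P = rm t y P * ν (sp h P (.some x y n)) := by
  obtain ⟨K, _, _, _, _, _, _, _, u, v, n0, g, ex, ed, em, e1, e2, e3, -⟩ := ex_sub h n t
  rw [e1, e2, pull_apply, e3, Finsupp.mapDomain_apply (Equiv.injective _)]

theorem dg_fB (ν : (crv a b).Point →₀ ℤ) :
    dg (fB h n t ν) = Module.finrank (adjoin k {x, y}) F * dg ν := by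
  obtain ⟨K, _, _, _, _, _, _, _, u, v, n0, g, ex, ed, em, e1, -⟩ := ex_sub h n t
  rw [e1, dg_pull, dg_map, ed]

theorem S_fB (ν : (crv a b).Point →₀ ℤ) :
    S h (.some x y n) (fB h n t ν) = Module.finrank (adjoin k {x, y}) F • sm _ ν := by
  obtain ⟨K, _, _, _, _, _, _, _, u, v, n0, g, ex, ed, em, e1, -, -, e4⟩ := ex_sub h n t
  rw [e1, e4, push_pull, map_nsmul, S_map, ed]

theorem dv_fB {c d : k} (m : (crv a b).Nonsingular c d) : dv k (x - algebraMap k F c) =
    fB h n t (single (.some c d m) 1 + single (-.some c d m) 1 - single 0 2) := by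
  obtain ⟨K, _, _, _, _, _, _, _, u, v, n0, g, ex, ed, em, e1, -⟩ := ex_sub h n t
  rw [e1, Finsupp.mapDomain_sub, Finsupp.mapDomain_add, Finsupp.mapDomain_single,
    Finsupp.mapDomain_single, Finsupp.mapDomain_single, ← dv_x, ← dv_algebraMap, map_sub, ex,
    ← IsScalarTower.algebraMap_apply]

include h n in
theorem ord_pole {P : Plk k F} (e : x ∉ P.1) : ord P x = -2 * rm t y P := by
  obtain ⟨K, _, _, _, _, _, _, _, u, v, n0, g, ex, ed, em, -, e2, e3, -⟩ := ex_sub h n t
  have := ord_algebraMap P u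
  rwa [e3, sp_pole h n e, (ord_O _ _ _).1, ← e2, mul_comm, ex] at this

theorem ord_sub {c d : k} (m : (crv a b).Nonsingular c d) {P : Plk k F}
    (e : sp h P (.some x y n) = .some c d m) :
    ord P (x - algebraMap k F c) = (if d = 0 then 2 else 1) * rm t y P := by
  rw [← dv_apply, dv_fB h n t m, fB_apply, e, mul_comm]
  have : -Point.some c d m = .some c d m ↔ d = 0 := by
    rw [Point.neg_some, Point.some.injEq]
    simp only [negY, zero_mul, sub_zero, true_and, neg_eq_iff_add_eq_zero, ← two_mul, mul_eq_zero,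
      h.two, false_or]
  congr 1
  split_ifs with l
  · simp [this.2 l, Point.some_ne_zero]
  · rw [Finsupp.sub_apply, Finsupp.add_apply, Finsupp.single_eq_of_ne' (mt this.1 l)]
    simp [Point.some_ne_zero]

open Classical in
/-- the multiplicities in the fibre over a point which is not of order two -/
theorem fB_ord {c d : k} (m : (crv a b).Nonsingular c d) (h2 : 2 • Point.some c d m ≠ 0)
    (P : Plk k F) : fB h n t (single (.some c d m) 1) P =
      if Val P x c ∧ Val P y d then ord P (x - algebraMap k F c) else 0 := by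
  rw [fB_apply]
  split_ifs with e <;> rw [← sp_eq_some h n m] at e
  · rw [ord_sub h n t m e, e, if_neg, Finsupp.single_eq_same, mul_comm]
    rintro rfl
    exact h2 (by rw [two_smul, add_eq_zero_iff_neg_eq, Point.neg_some]; simp [negY])
  · rw [Finsupp.single_eq_of_ne e, mul_zero]

/-- **functions with a given divisor, normalised at the origin** -/
theorem ex_phi {ν : (crv a b).Point →₀ ℤ} (e0 : ν 0 = 0) (e1 : dg ν = 0) (e2 : sm _ ν = 0) :
    ∃ φ : Fˣ, (φ : F) ∈ adjoin k {x, y} ∧ dv k (φ : F) = fB h n t ν ∧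
      ∀ P : Plk k F, x ∉ P.1 → Val P (φ : F) 1 := by
  obtain ⟨K, _, _, _, _, _, _, _, u, v, n0, g, ex, ed, em, l1, -, l3, -⟩ := ex_sub h n t
  obtain ⟨f, hf⟩ := ex_fn (h.up K) n0 g ((dg_map _ ν).trans e1)
    ((S_map _ _ _ ν).trans e2)
  have o : ord (pc (h.up K) n0 g 0) (f : K) = 0 := by
    rw [← dv_apply, hf, Finsupp.mapDomain_apply (Equiv.injective _), e0]
  have w := val_vl o.ge
  have c0 := w.ne_zero f.ne_zero o
  generalize vl (pc (h.up K) n0 g 0) (f : K) = c at w c0
  have c1 := (_root_.map_ne_zero (algebraMap k K)).2 (inv_ne_zero c0)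
  refine ⟨Units.mk0 _ ((_root_.map_ne_zero (algebraMap _ F)).2 (mul_ne_zero c1 f.ne_zero)),
    em _, ?_, fun P e => ?_⟩
  · rw [Units.val_mk0, dv_algebraMap, dv_mul c1 f.ne_zero, dv_const, zero_add, hf, l1]
  · have := (Val.const _ c⁻¹).mul w
    rw [inv_mul_cancel₀ c0, ← sp_pole h n e, ← l3] at this
    exact val_map (s := algebraMap K F) (s₀ := RingHom.id k)
      (fun z => (IsScalarTower.algebraMap_apply k K F z).symm) (fun _ => Iff.rfl) this

omit [DecidableEq k] [DecidableEq F] in
include t in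
theorem phi_uq {f g : F} (f0 : f ≠ 0) (g0 : g ≠ 0) (e : dv k f = dv k g)
    (hf : ∀ P : Plk k F, x ∉ P.1 → Val P f 1) (hg : ∀ P : Plk k F, x ∉ P.1 → Val P g 1) : f = g := by
  obtain ⟨P, l⟩ := exists_pole (k := k) (z := x) fun c e => t (e ▸ isAlgebraic_algebraMap c)
  have : x ∉ P.1 := fun m => (ord_nonneg_of_mem P m).not_gt l
  exact fn_uq f0 g0 e one_ne_zero (hf P this) (hg P this)

/-- **the pairing with a pull-back** -/
theorem e_fB [IsAlgClosed k] {m : ℕ} (hm : m ≠ 0) {ν : (crv a b).Point →₀ ℤ} (e1 : dg ν = 0)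
    (e2 : m • sm _ ν = 0) {f f' : Fˣ} {D : Plk k F →₀ ℤ} (hf : m • fB h n t ν = dv k (f : F))
    (hf' : m • D = dv k (f' : F)) :
    e k m f f' = eW h.self m (sm _ ν) (S h (.some x y n) D) := by
  obtain ⟨K, _, _, _, _, _, _, _, u, v, n0, g, ex, ed, em, l1, -, -, l4⟩ := ex_sub h n t
  have d := dg_of_tors hm ⟨_, f'.ne_zero, hf'⟩
  have c := cl_S (h.up K) n0 g ((dg_map (pc (h.up K) n0 g) ν).trans e1)
  rw [S_map] at c
  rw [eW_cl h.self (h.up K) n0 g hm e2 (by
      rw [← map_nsmul, hf', abel h _ f'.ne_zero]), l4, cl_S _ _ _ ((dg_push D).trans d),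
    ← eP_mk hm hf hf', l1, ← pullP_mk, ← pushP_mk, ← c,
    eP_adj hm (by rw [← map_nsmul, e2, map_zero]) (mk_tors.2 ⟨_, f'.ne_zero, hf'⟩)]

section semi

variable {k' F' : Type} [Field k'] [Field F'] [Algebra k' F'] [CFF k' F'] [DecidableEq k']
  [DecidableEq F'] {c d : k'} {c' d' x' y' : F'} (h' : Cd c d c' d')
  (n' : (crv c' d').Nonsingular x' y') (t' : Transcendental k' x') {s : F ≃+* F'} {s₀ : k ≃+* k'}
  (hs : ∀ z, s (algebraMap k F z) = algebraMap k' F' (s₀ z)) (hx : s x = x') (hy : s y = y')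
  (e1 : (s₀ : k →+* k') a = c) (e2 : (s₀ : k →+* k') b = d)

include hx hy in
theorem sp_fix (P : Plk k F) :
    sp h' (plEquiv s s₀ hs P) (.some x' y' n') = mp s₀ e1 e2 (sp h P (.some x y n)) := by
  subst hx hy
  have := sp_semi h h' hs P e1 e2 (h.ha ▸ (hs a).trans (e1 ▸ h'.ha))
    (h.hb ▸ (hs b).trans (e2 ▸ h'.hb)) (.some x y n)
  rwa [mp_some] at this

include h n h' n' hx hy e1 e2 in
theorem rm_semi (P : Plk k F) : rm t' y' (plEquiv s s₀ hs P) = rm t y P := by
  have l := sp_fix h n h' n' hs hx hy e1 e2 P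
  generalize e : sp h P (.some x y n) = R at l
  rcases R with _ | ⟨u, v, m⟩
  · have := ord_plEquiv s s₀ hs P x
    rw [hx, ord_pole h n t ((sp_eq_zero h n).1 e), ord_pole h' n' t' ((sp_eq_zero h' n').1 l)] at this
    omega
  · have := ord_plEquiv s s₀ hs P (x - algebraMap k F u)
    rw [mp_some] at l
    rw [map_sub, hx, hs, ord_sub h n t m e] at this
    have l' := ord_sub h' n' t' _ l
    simp only [RingHom.coe_coe, EmbeddingLike.map_eq_zero_iff] at l'
    rw [l'] at this
    split_ifs at this <;> omega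

include hx hy in
theorem fB_semi (ν : (crv a b).Point →₀ ℤ) : (fB h n t ν).mapDomain (plEquiv s s₀ hs) =
    fB h' n' t' (ν.mapDomain (mp s₀ e1 e2)) := Finsupp.ext fun P => by
  obtain ⟨P, rfl⟩ := (plEquiv s s₀ hs).surjective P
  rw [Finsupp.mapDomain_apply (Equiv.injective _), fB_apply, fB_apply,
    rm_semi h n t h' n' t' hs hx hy e1 e2, sp_fix h n h' n' hs hx hy e1 e2,
    Finsupp.mapDomain_apply (mp_inj _ _ _)]

end semi

end Vale.Agent.P014T.Pu
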