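import Vale.Agent.P014T.Pu.Sp
import Vale.Agent.P004Z.Ar.Fun0
import Vale.Agent.P004Z.Ar.Ae
import Vale.Agent.P027H.Unif

/-! # P014, block PUSH: points over the field of meromorphic functions -/

set_option autoImplicit false
set_option linter.all false

open WeierstrassCurve WeierstrassCurve.Affine UpperHalfPlane CongruenceSubgroup Filter Topology
open scoped MatrixGroups

noncomputable section

namespace Vale.Agent.P014T.Pu

open Vale.Agent.P019P P025H492 Vale.Agent.P004H.H666 Vale.Agent.P004M.TE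
open Vale.Agent.P022.H218.L3 Vale.Agent.P022.H231.L3 Vale.Agent.P022.H236.L3
open Vale.Agent.P022K.F0.Cf hiding MF
open Vale.Agent.P004Z Vale.Agent.P004Z.Ar Vale.Agent.P004Z.Ar.Fn
open Vale.Agent.P027H (IsLat wp dwp g2 g3)

variable {τ : ℍ} {x y : Mer} {c d : ℂ}

theorem val_iff : EF.Val τ x c ↔ Reg τ x ∧ ev τ x = c :=
  ⟨val_ev, fun ⟨⟨g, h, h0, e⟩, e'⟩ => ⟨g, h, h0, e, by
    rw [← e', ev_eq h0 e, div_mul_cancel₀ _ h0]⟩⟩

theorem pl_lt (τ : ℍ) (x : Mer) : (pl τ).valuation x < 1 ↔ x = 0 ∨ 0 < od τ x := by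
  rcases eq_or_ne x 0 with rfl | h
  · simp
  · rw [← not_le, ← inv_le_one₀ ((Valuation.pos_iff _).2 h), ← map_inv₀,
      ValuationSubring.valuation_le_one_iff, mem_pl, reg_iff, od_inv]
    simp only [h, inv_eq_zero, false_or]
    omega

theorem val_pb {g : GL (Fin 2) ℝ} (hg : 0 < g.det.val) (h : EF.Val (g • τ) x c) :
    EF.Val τ (pb g hg x) c := by
  obtain ⟨u, v, v0, e, e'⟩ := h
  refine ⟨pbH g hg u, pbH g hg v, v0, ?_, e'⟩
  rw [← pb_algebraMap, ← pb_algebraMap, ← map_mul, e]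

theorem reg_pb {g : GL (Fin 2) ℝ} (hg : 0 < g.det.val) : Reg τ (pb g hg x) ↔ Reg (g • τ) x := by
  refine ⟨fun h => by_contra fun n => ?_, fun h => (val_ev (val_pb hg (val_iff.2 ⟨h, rfl⟩))).1⟩
  have x0 : x ≠ 0 := fun e => n (reg_iff.2 (.inl e))
  have r : Reg (g • τ) x⁻¹ := ((pl _).mem_or_inv_mem x).resolve_left n
  obtain ⟨r1, r2⟩ := val_ev (val_pb hg (val_iff.2 ⟨r, by rw [ev_inv, ev_pole n, inv_zero]⟩))
  have := ev_mul h r1
  rw [← map_mul, mul_inv_cancel₀ x0, map_one, r2, mul_zero, ← map_one (algebraMap ℂ Mer),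
    ev_const] at this
  exact one_ne_zero this

variable {a b : ℂ} {a' b' : Mer}

theorem Cd.rd0 (h : Cd a b a' b') (τ : ℍ) :
    (∀ x y, (crv a' b').Equation x y → Reg τ x → Reg τ y ∧ (crv a b).Nonsingular (ev τ x) (ev τ y)) ∧
    letI : DecidableEq Mer := fun _ _ => Classical.propDecidable _
    letI : DecidableEq ℂ := fun _ _ => Classical.propDecidable _
    ∀ ξ η : (crv a' b').Point,
      P179W.ptRed {z | (pl τ).valuation z ≤ 1} (ev τ) (crv a b) (ξ + η) =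
      P179W.ptRed {z | (pl τ).valuation z ≤ 1} (ev τ) (crv a b) ξ +
      P179W.ptRed {z | (pl τ).valuation z ≤ 1} (ev τ) (crv a b) η := by
  have v : ∀ z, (pl τ).valuation z ≤ 1 ↔ Reg τ z := fun z => (pl τ).valuation_le_one_iff z
  have c : ∀ z : ℂ, (pl τ).valuation (algebraMap ℂ Mer z) ≤ 1 := fun z => (v _).2 (reg_const τ z)
  have c0 : (pl τ).valuation 0 ≤ 1 := by simp
  obtain ⟨h1, h2, -⟩ := P179W.ptRed_holds Mer _ (pl τ).valuation (crv a' b')
    ⟨c0, c0, c0, h.ha ▸ c a, h.hb ▸ c b⟩ (le_antisymm (h.dm ▸ c _) (not_lt.1 fun e => by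
      rcases (pl_lt τ _).1 e with e | e
      · exact h.d1 e
      · rw [h.dm, od_const] at e
        exact e.false))
  obtain ⟨-, h3, h4⟩ := h2 ℂ (ev τ) (crv a b) (by simpa using ev_const τ 1)
    (fun x y e e' => ev_add ((v x).1 e) ((v y).1 e'))
    (fun x y e e' => ev_mul ((v x).1 e) ((v y).1 e'))
    (fun x e => by
      rw [pl_lt]
      rcases eq_or_ne x 0 with rfl | x0
      · simp [ev_zero]
      · rw [ev_eq_zero x0 ((v x).1 e), or_iff_right x0])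
    (ev_zero τ).symm (ev_zero τ).symm (ev_zero τ).symm (h.ha ▸ (ev_const τ a).symm)
    (h.hb ▸ (ev_const τ b).symm)
  exact ⟨fun x y e l => ⟨(v _).1 (h1 x y e ((v _).2 l)), h3 x y e ((v _).2 l)⟩, h4⟩

variable [DecidableEq Mer]

/-- the value of a point at `τ` -/
def rd (h : Cd a b a' b') (τ : ℍ) : (crv a' b').Point →+ (crv a b).Point :=
  AddMonoidHom.mk' (P179W.ptRed {z | (pl τ).valuation z ≤ 1} (ev τ) (crv a b)) (by
    obtain rfl : ‹DecidableEq Mer› = fun _ _ => Classical.propDecidable _ := Subsingleton.elim _ _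
    exact (h.rd0 τ).2)

variable (h : Cd a b a' b')

theorem rd_pole (n : (crv a' b').Nonsingular x y) (hx : ¬ Reg τ x) : rd h τ (.some x y n) = 0 :=
  if_neg fun e => hx (((pl τ).valuation_le_one_iff _).1 e)

theorem rd_reg (n : (crv a' b').Nonsingular x y) (hx : Reg τ x) :
    rd h τ (.some x y n) = .some (ev τ x) (ev τ y) ((h.rd0 τ).1 x y n.1 hx).2 :=
  (if_pos (((pl τ).valuation_le_one_iff _).2 hx)).trans (P179W.pt_of _)

theorem rd_some (n : (crv a' b').Nonsingular x y) (hx : EF.Val τ x c) (hy : EF.Val τ y d) :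
    ∃ n', rd h τ (.some x y n) = .some c d n' := by
  obtain ⟨r, rfl⟩ := val_ev hx
  obtain ⟨-, rfl⟩ := val_ev hy
  exact ⟨_, rd_reg h n r⟩

theorem rd_ext {ξ η : (crv a' b').Point} (e : ∀ τ, rd h τ ξ = rd h τ η) : ξ = η := by
  rw [← sub_eq_zero]
  have e' : ∀ τ, rd h τ (ξ - η) = 0 := fun τ => by rw [map_sub, e, sub_self]
  generalize ξ - η = ζ at e'
  rcases ζ with _ | ⟨x, y, n⟩
  · rfl
  obtain ⟨z, k, l⟩ := ((Bo.fr_ne I).and_eventually (ev_reg I x)).exists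
  exact absurd ((rd_reg h n (l k)).symm.trans (e' z)) (Point.some_ne_zero _)

theorem Cd.fa (h : Cd a b a' b') (s : Mer ≃ₐ[ℂ] Mer) : (s : Mer →+* Mer) a' = a' := h.ha ▸ s.commutes a

theorem Cd.fb (h : Cd a b a' b') (s : Mer ≃ₐ[ℂ] Mer) : (s : Mer →+* Mer) b' = b' := h.hb ▸ s.commutes b

theorem rd_pb {g : GL (Fin 2) ℝ} (hg : 0 < g.det.val) (τ : ℍ) (ξ : (crv a' b').Point) :
    rd h τ (mp (pb g hg : Mer →+* Mer) (h.fa _) (h.fb _) ξ) = rd h (g • τ) ξ := by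
  rcases ξ with _ | ⟨x, y, n⟩
  · rfl
  rw [mp_some]
  by_cases r : Reg (g • τ) x
  · rw [rd_reg h n r]
    exact (rd_some h _ (val_pb hg (val_iff.2 ⟨r, rfl⟩))
      (val_pb hg (val_iff.2 ⟨((h.rd0 _).1 x y n.1 r).1, rfl⟩))).2
  · rw [rd_pole h n r]
    exact rd_pole h _ fun e => r ((reg_pb hg).1 e)

section lev

variable {Γ : Subgroup SL(2, ℤ)} [CFF ℂ (MF Γ)]

omit [DecidableEq Mer] in
theorem val_pt {f : MF Γ} : P027M.K.Val (pt Γ τ) f c ↔ EF.Val τ (f : Mer) c := by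
  have e : ((f - algebraMap ℂ (MF Γ) c : MF Γ) : Mer) = f - algebraMap ℂ Mer c := rfl
  rw [P027M.K.Val, one_iff, mem_pt, ← Subtype.val_inj, val_iff, IntermediateField.coe_inv, e,
    reg_iff (y := _⁻¹), od_inv, inv_eq_zero]
  change (f : Mer) - _ = 0 ∨ _ ↔ _
  have r := reg_const τ c
  refine ⟨fun k => ?_, fun k => (eq_or_ne _ _).imp_right fun n => ?_⟩
  · have k' : Reg τ (f - algebraMap ℂ Mer c) ∧ ev τ (f - algebraMap ℂ Mer c) = 0 := by
      rcases eq_or_ne (f - algebraMap ℂ Mer c) 0 with n | n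
      · rw [n]
        exact ⟨reg_iff.2 (.inl rfl), ev_zero τ⟩
      · have k := not_or.1 (k.resolve_left n)
        have := reg_iff.2 (.inr (show 0 ≤ od τ (f - algebraMap ℂ Mer c) by omega))
        exact ⟨this, (ev_eq_zero n this).2 (by omega)⟩
    have r' := k'.1.add r
    rw [sub_add_cancel] at r'
    rw [ev_sub r' r, ev_const, sub_eq_zero] at k'
    exact ⟨r', k'.2⟩
  · have := (ev_eq_zero n ((pl τ).sub_mem k.1 r)).1 (by rw [ev_sub k.1 r, ev_const, k.2, sub_self])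
    rintro (l | l)
    exacts [n l, by omega]

theorem sp_pt [DecidableEq (MF Γ)] {u v : MF Γ} (h' : Cd a b u v) (eu : algebraMap _ Mer u = a')
    (ev' : algebraMap _ Mer v = b') (τ : ℍ) (ξ : (crv u v).Point) :
    sp h' (pt Γ τ) ξ = rd h τ (mp (algebraMap (MF Γ) Mer) eu ev' ξ) := by
  rcases ξ with _ | ⟨x, y, n⟩
  · rfl
  rw [mp_some]
  by_cases r : x ∈ (pt Γ τ).1
  · rw [sp_mem h' n r]
    exact (rd_some h _ (val_pt.1 (val_of r))
      (val_pt.1 (val_of ((h'.red _).1 x y n.1 r).1))).2.symm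
  · rw [sp_pole h' n r, rd_pole h _ r]

end lev

/-! ### the functions `℘ ∘ F` -/

section wp

omit [DecidableEq Mer]

variable {Λ : Submodule ℤ ℂ} {F : ℍ → ℂ}

/-- `x = ℘ ∘ F` with `F` holomorphic and not constant -/
structure Wp (Λ : Submodule ℤ ℂ) (F : ℍ → ℂ) (x : Mer) : Prop where
  lat : IsLat Λ
  hol : F ∈ Hol
  nc : ∀ c, F ≠ fun _ => c
  xv : ∀ τ, F τ ∉ Λ → EF.Val τ x (wp Λ (F τ))

theorem key {ι : Type} {l : Filter ι} (hL : IsLat Λ) {u φ : ι → ℂ} {c e : ℂ} (hc : c ∈ Λ)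
    (t : Tendsto u l (𝓝 c)) (f : ∃ᶠ i in l, u i ≠ c) (p : Tendsto φ l (𝓝 e))
    (k : ∀ᶠ i in l, u i ∉ Λ → φ i = wp Λ (u i)) : False := by
  have : (l ⊓ 𝓟 {i | u i ≠ c}).NeBot := frequently_iff_neBot.1 f
  have t0 : Tendsto (fun i => u i - c) (l ⊓ 𝓟 {i | u i ≠ c}) (𝓝[≠] 0) :=
    tendsto_nhdsWithin_iff.2 ⟨by simpa using (t.sub_const c).mono_left inf_le_left,
      eventually_inf_principal.2 (.of_forall fun i e => sub_ne_zero.2 e)⟩
  refine one_ne_zero ((tendsto_nhds_unique_of_eventuallyEq (hL.tendsto_wp.comp t0)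
    (((t0.mono_right nhdsWithin_le_nhds).pow 2).mul (p.mono_left inf_le_left)) ?_).trans (by simp))
  filter_upwards [k.filter_mono inf_le_left, t0.eventually hL.notMem_zero] with i k n
  rw [k fun e => n (sub_mem e hc), Function.comp, hL.wp_congr (w := u i) (by simpa using hc)]

theorem Wp.pole (w : Wp Λ F x) (e : F τ ∈ Λ) : ¬ Reg τ x := fun k => by
  obtain ⟨φ, c, l⟩ := Ae.ev_loc k
  exact key (l := 𝓝[≠] τ) w.lat e ((Ae.cont w.hol).continuousAt.tendsto.mono_left nhdsWithin_le_nhds)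
    ((Ae.ev_hol w.hol τ _).resolve_left (w.nc _)).frequently
    (c.tendsto.mono_left nhdsWithin_le_nhds)
    ((l.filter_mono nhdsWithin_le_nhds).mono fun σ l n => l ▸ (val_ev (w.xv σ n)).2)

/-- poles at the cusps -/
theorem Wp.cusp (w : Wp Λ F x) {g : SL(2, ℤ)} {c : ℂ}
    (t : Tendsto (fun z => F (g • z)) atImInfty (𝓝 c)) : act g⁻¹ x ∉ LR ↔ c ∈ Λ := by
  refine ⟨fun n => by_contra fun e => n ?_, fun e ⟨_, d, p⟩ => ?_⟩
  · have k := t.eventually (w.lat.notMem_nhds e)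
    exact ⟨k.mono fun z k => (reg_act g z x).2 (val_ev (w.xv _ k)).1, _,
      ((w.lat.analyticAt_wp e).continuousAt.tendsto.comp t).congr' (k.mono fun z k => by
        simp only [ev_act, (val_ev (w.xv _ k)).2, Function.comp])⟩
  · refine key w.lat e t (fun k => w.nc c (funext fun z => ?_)) p (.of_forall fun z n => by
      rw [ev_act, (val_ev (w.xv _ n)).2])
    have := congrFun (ExL.hol_zero (Hol.sub_mem (comp_mem g w.hol) (algebraMap ℂ Hol c).2)
      ((ExL.zero 1).congr (k.mono fun z k => (sub_eq_zero.2 (not_not.1 k)).symm))) (g⁻¹ • z)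
    simpa [sub_eq_zero] using this

/-- a uniformisation -/
structure Ux (Λ : Submodule ℤ ℂ) {a b : ℂ} (ex : ℂ →+ (crv a b).Point) : Prop where
  surj : Function.Surjective ex
  ker : ∀ u, ex u = 0 ↔ u ∈ Λ
  xy : ∀ u, u ∉ Λ → ∃ n, ex u = .some (wp Λ u) (dwp Λ u / 2) n

theorem ex_ux (hL : IsLat Λ) (e2 : g2 Λ = -4 * a) (e3 : g3 Λ = -4 * b)
    (hD : 4 * a ^ 3 + 27 * b ^ 2 ≠ 0) : ∃ ex : ℂ →+ (crv a b).Point, Ux Λ ex := by
  obtain ⟨Λ', L, k2, k3, ex, sj, ker, xy⟩ := P027H.exists_unif a b hD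
  obtain rfl := L.ext_g hL (k2.trans e2.symm) (k3.trans e3.symm)
  refine ⟨ex, sj, ker, fun u k => ?_⟩
  obtain ⟨k1, k2⟩ := xy u
  have k3 := mt (ker u).1 k
  generalize ex u = Q at k1 k2 k3
  rcases Q with _ | ⟨x, y, n⟩
  · exact absurd rfl k3
  · obtain rfl : x = _ := k1
    obtain rfl : y = _ := eq_div_of_mul_eq two_ne_zero ((mul_comm _ _).trans k2)
    exact ⟨n, rfl⟩

end wp

theorem Wp.rd {Λ : Submodule ℤ ℂ} {F : ℍ → ℂ} (w : Wp Λ F x)
    (yv : ∀ τ, F τ ∉ Λ → EF.Val τ y (dwp Λ (F τ) / 2)) {ex : ℂ →+ (crv a b).Point} (u : Ux Λ ex)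
    (n : (crv a' b').Nonsingular x y) (τ : ℍ) : rd h τ (.some x y n) = ex (F τ) := by
  by_cases e : F τ ∈ Λ
  · rw [rd_pole h n (w.pole e), (u.ker _).2 e]
  · obtain ⟨_, k⟩ := u.xy _ e
    rw [k]
    exact (rd_some h n (w.xv τ e) (yv τ e)).2

end Vale.Agent.P014T.Pu
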