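import Vale.Agent.P014T.Pu.Sp

/-! # P014, block PUSH: divisor classes on an elliptic curve, the pairing of Weil -/

set_option autoImplicit false
set_option linter.all false

open WeierstrassCurve WeierstrassCurve.Affine Polynomial IntermediateField

noncomputable section

namespace Vale.Agent.P014T.Pu

open Vale.Agent.P019P P025H492 P025H816 P027M.K Vale.Agent.P004H.H666 Vale.Agent.P004M.TE
open Finsupp (single)

variable {k F : Type} [Field k] [Field F] [Algebra k F] {a b : k} {a' b' x y : F}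

theorem Cd.self (h : Cd a b a' b') : Cd a b a b := ⟨rfl, rfl, h.two, h.hD⟩

theorem Cd.up (h : Cd a b a' b') (L : Type) [Field L] [Algebra k L] :
    Cd a b (algebraMap k L a) (algebraMap k L b) := ⟨rfl, rfl, h.two, h.hD⟩

theorem eqn (n : (crv a' b').Nonsingular x y) : y ^ 2 = x ^ 3 + a' * x + b' := by
  simpa using (equation_iff _ _).1 n.1

theorem Cd.nsg (h : Cd a b a' b') (e : y ^ 2 = x ^ 3 + a' * x + b') : (crv a' b').Nonsingular x y :=
  (equation_iff_nonsingular_of_Δ_ne_zero h.d1).1 ((equation_iff _ _).2 (by simpa using e))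

theorem Gn.nc (g : Gn k x y) (c : k) : x ≠ algebraMap k F c := fun e =>
  g.tr (e ▸ isAlgebraic_algebraMap c)

theorem Gn.fin (h : Cd a b a' b') (n : (crv a' b').Nonsingular x y) (g : Gn k x y) :
    FiniteDimensional k⟮x⟯ F ∧ Module.finrank k⟮x⟯ F ≤ 2 := by
  let c : k⟮x⟯ := AdjoinSimple.gen k x ^ 3 + algebraMap k _ a * AdjoinSimple.gen k x + algebraMap k _ b
  have e : aeval y (X ^ 2 - C c) = 0 := by
    rw [map_sub, map_pow, aeval_X, aeval_C, eqn n, ← h.ha, ← h.hb, sub_eq_zero]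
    rfl
  have i : IsIntegral k⟮x⟯ y := ⟨_, monic_X_pow_sub_C c two_ne_zero, e⟩
  have t : k⟮x⟯⟮y⟯ = ⊤ := restrictScalars_injective k (by
    rw [adjoin_simple_adjoin_simple, g.top, restrictScalars_top])
  have f := adjoin.finiteDimensional i
  have r := adjoin.finrank i
  rw [t] at f r
  refine ⟨topEquiv.toLinearEquiv.finiteDimensional, ?_⟩
  rw [← finrank_top', r]
  exact natDegree_le_iff_degree_le.2 ((minpoly.min _ _ (monic_X_pow_sub_C c two_ne_zero) e).trans
    (degree_X_pow_sub_C two_pos c).le)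

theorem Gn.cff [IsAlgClosed k] (h : Cd a b a' b') (n : (crv a' b').Nonsingular x y) (g : Gn k x y) :
    CFF k F := ⟨inferInstance, x, g.tr, (g.fin h n).1⟩

theorem sle {P : Type} {D : P →₀ ℤ} (h0 : 0 ≤ D) {p : P} {m : ℤ} (e : m ≤ D p) :
    single p m ≤ D := fun q => by
  rcases eq_or_ne q p with rfl | l
  · simpa using e
  · simpa [l] using h0 q

theorem eff1 {P : Type} {D : P →₀ ℤ} (h0 : 0 ≤ D) (h1 : dg D = 1) : ∃ p, D = single p 1 := by
  obtain ⟨p, hp⟩ : ∃ p, D p ≠ 0 := by
    by_contra! e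
    rw [show D = 0 from Finsupp.ext e, map_zero] at h1
    exact zero_ne_one h1
  exact ⟨p, (eq_of_le_of_dg_le (sle h0 (m := 1) ((h0 p).lt_of_ne' hp)) (by rw [h1, dg_sgl])).symm⟩

theorem eff2 {P : Type} {D : P →₀ ℤ} (h0 : 0 ≤ D) (h2 : dg D = 2) {p : P} (hp : 1 ≤ D p) :
    ∃ q, D = single p 1 + single q 1 := by
  obtain ⟨q, e⟩ := eff1 (D := D - single p 1) (sub_nonneg.2 (sle h0 hp)) (by
    rw [map_sub, h2, dg_sgl]; rfl)
  exact ⟨q, sub_eq_iff_eq_add'.1 e⟩

section gn

variable [CFF k F] [DecidableEq k] [DecidableEq F] (h : Cd a b a' b')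
  (n : (crv a' b').Nonsingular x y) (g : Gn k x y)

/-- the place of a point -/
def pc : (crv a b).Point ≃ Plk k F := (Equiv.ofBijective _ (gn_main h n g).1).symm

theorem sp_pc (R : (crv a b).Point) : sp h (pc h n g R) (.some x y n) = R :=
  (pc h n g).symm_apply_apply R

theorem pc_sp (P : Plk k F) : pc h n g (sp h P (.some x y n)) = P := (pc h n g).apply_symm_apply P

theorem S_pc (R : (crv a b).Point) (m : ℤ) : S h (.some x y n) (single (pc h n g R) m) = m • R := by
  rw [S_single, sp_pc]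

theorem mem_iff (P : Plk k F) : x ∈ P.1 ↔ P ≠ pc h n g 0 := by
  rw [Ne, ← Equiv.symm_apply_eq, ← not_iff_not, not_not]
  exact (sp_eq_zero h n).symm

theorem val_pc {c d : k} (m : (crv a b).Nonsingular c d) :
    Val (pc h n g (.some c d m)) x c ∧ Val (pc h n g (.some c d m)) y d :=
  (sp_eq_some h n m).1 (sp_pc h n g _)

theorem ord_O : ord (pc h n g 0) x = -2 ∧ ord (pc h n g 0) y = -3 := by
  have x0 : x ≠ 0 := fun e => g.nc 0 (by rw [e, map_zero])
  have x1 : ord (pc h n g 0) x < 0 := by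
    have := (mem_iff h n g _).not.2 (not_not.2 rfl)
    rw [mem_iff_ord] at this
    omega
  have e := ord_add_of_lt (P := pc h n g 0) (pow_ne_zero 3 x0) (w := a' * x + b') (add_mem
    (Mge_mono _ (by rw [ord_pow]; omega) (mul_mem_Mge (h.ha ▸ const_mem _ a) (.inr le_rfl)))
    (Mge_mono _ (by rw [ord_pow]; omega) (h.hb ▸ const_mem _ b)))
  rw [← add_assoc, ← eqn n, ord_pow, ord_pow] at e
  have l := dg_pol g.nc
  rw [dg_eq_sum (S := {pc h n g 0}) fun P e => by
    have := ord_nonneg_of_mem P ((mem_iff h n g P).2 (by simpa using e))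
    rw [pol_apply]
    omega, Finset.sum_singleton, pol_apply] at l
  have := (g.fin h n).2
  omega

theorem eff {z : F} (c : k) {m : ℤ} (hz : ∀ P, P ≠ pc h n g 0 → z ∈ P.1)
    (o : ord (pc h n g 0) z = -m) (m0 : 0 < m) : z - algebraMap k F c ≠ 0 ∧
      ord (pc h n g 0) (z - algebraMap k F c) = -m ∧
      0 ≤ dv k (z - algebraMap k F c) + single (pc h n g 0) m := by
  have z0 : z ≠ 0 := by
    rintro rfl
    rw [ord_zero] at o
    omega
  have e := ord_add_of_lt (P := pc h n g 0) z0 (w := -algebraMap k F c)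
    (neg_mem (Mge_mono _ (by omega) (const_mem _ c)))
  rw [← sub_eq_add_neg] at e
  refine ⟨e.1, e.2.trans o, fun P => ?_⟩
  rw [Finsupp.add_apply, dv_apply]
  rcases eq_or_ne P (pc h n g 0) with rfl | l
  · simp [e.2, o]
  · simpa [l] using ord_nonneg_of_mem P (P.1.sub_mem (hz P l) (P.2.1 c))

theorem dv_x {c d : k} (m : (crv a b).Nonsingular c d) : dv k (x - algebraMap k F c) =
    single (pc h n g (.some c d m)) 1 + single (pc h n g (-.some c d m)) 1 -
      single (pc h n g 0) 2 := by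
  obtain ⟨z0, -, e⟩ := eff h n g c (fun P => (mem_iff h n g P).2) (ord_O h n g).1 two_pos
  have ne : pc h n g (.some c d m) ≠ pc h n g 0 := (pc h n g).injective.ne (Point.some_ne_zero _)
  obtain ⟨q, l⟩ := eff2 e (by rw [map_add, dg_dv, dg_sgl, zero_add]) (p := pc h n g (.some c d m))
    (by simpa [ne, dv_apply] using (mem_Mge.1 (val_pc h n g m).1).resolve_left z0)
  obtain ⟨q, rfl⟩ := (pc h n g).surjective q
  have := congrArg (S h (.some x y n)) l
  rw [map_add, map_add, abel h _ z0, S_pc, S_pc, S_pc, smul_zero, one_smul, one_smul, zero_add,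
    eq_comm, add_eq_zero_iff_neg_eq] at this
  rw [this, ← l, add_sub_cancel_right]

/-- **the chord and tangent law in terms of divisors** -/
theorem sq_prn (R T : (crv a b).Point) : single (pc h n g R) 1 + single (pc h n g T) 1 -
    single (pc h n g (R + T)) 1 - single (pc h n g 0) 1 ∈ prn k F := by
  rcases eq_or_ne T 0 with rfl | T0
  · simp
  rcases R with _ | ⟨u, v, m⟩
  · change single (pc h n g 0) 1 + _ - single (pc h n g (0 + T)) 1 - _ ∈ _
    simp
  generalize e : Point.some u v m + T = Q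
  rcases Q with _ | ⟨c, d, m'⟩
  · obtain rfl := eq_neg_of_add_eq_zero_right e
    refine ⟨_, sub_ne_zero.2 (g.nc u), .trans ?_ (dv_x h n g m).symm⟩
    change _ - single (pc h n g 0) 1 - _ = _
    rw [sub_sub, ← Finsupp.single_add]
    rfl
  have y1 : ∀ P, P ≠ pc h n g 0 → y ∈ P.1 := fun P l =>
    ((h.red P).1 x y n.1 ((mem_iff h n g P).2 l)).1
  obtain ⟨y0, yo, ye⟩ := eff h n g (-d) y1 (ord_O h n g).2 three_pos
  have x0 := sub_ne_zero.2 (g.nc c)
  have ne : ∀ {R}, R ≠ 0 → pc h n g R ≠ pc h n g 0 := fun l => (pc h n g).injective.ne l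
  have zd : dv k ((y - algebraMap k F (-d)) / (x - algebraMap k F c)) +
      single (pc h n g (.some c d m')) 1 + single (pc h n g 0) 1 =
      dv k (y - algebraMap k F (-d)) + single (pc h n g 0) 3 - single (pc h n g (-.some c d m')) 1 := by
    rw [div_eq_mul_inv, dv_mul y0 (inv_ne_zero x0), dv_inv, dv_x h n g m',
      show (3 : ℤ) = 2 + 1 from rfl, Finsupp.single_add]
    abel
  have ze : 0 ≤ dv k ((y - algebraMap k F (-d)) / (x - algebraMap k F c)) +
      single (pc h n g (.some c d m')) 1 + single (pc h n g 0) 1 := by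
    rw [zd, sub_nonneg]
    refine sle ye ?_
    have : Val (pc h n g (-.some c d m')) y (-d) := by
      simpa [negY] using (val_pc h n g ((nonsingular_neg ..).2 m')).2
    simpa [ne (neg_ne_zero.2 (Point.some_ne_zero m')), dv_apply] using
      (mem_Mge.1 this).resolve_left y0
  generalize (y - algebraMap k F (-d)) / (x - algebraMap k F c) = z at zd ze
  have zo := DFunLike.congr_fun zd (pc h n g 0)
  have n1 := ne (Point.some_ne_zero m')
  have n2 := ne (neg_ne_zero.2 (Point.some_ne_zero m'))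
  have n3 := ne (Point.some_ne_zero m)
  have n4 : pc h n g (.some u v m) ≠ pc h n g (.some c d m') :=
    (pc h n g).injective.ne fun l => T0 (left_eq_add.1 (l.trans e.symm))
  simp only [Finsupp.add_apply, Finsupp.sub_apply, dv_apply, yo, Finsupp.single_eq_same,
    Finsupp.single_eq_of_ne n1.symm, Finsupp.single_eq_of_ne n2.symm] at zo
  have z0 : z ≠ 0 := by
    rintro rfl
    rw [ord_zero] at zo
    omega
  have z1 := ze (pc h n g (.some u v m))
  simp only [Finsupp.add_apply, dv_apply, Finsupp.single_eq_of_ne n3, Finsupp.single_eq_of_ne n4,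
    add_zero] at z1
  have z2 := val_vl z1
  generalize vl (pc h n g (.some u v m)) z = t at z2
  have w0 := (ord_add_of_lt (P := pc h n g 0) z0 (w := -algebraMap k F t)
    (neg_mem (Mge_mono _ (by omega) (const_mem _ t)))).1
  rw [← sub_eq_add_neg] at w0
  have p : 0 ≤ single (pc h n g (.some c d m')) (1 : ℤ) + single (pc h n g 0) 1 :=
    add_nonneg (Finsupp.single_nonneg.2 zero_le_one) (Finsupp.single_nonneg.2 zero_le_one)
  have w1 := (sub_mem (S := Submodule k F) (H := LL k (single (pc h n g (.some c d m')) 1 +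
    single (pc h n g 0) 1)) (x := z) (y := algebraMap k F t) (Or.inr fun P => by
      have := ze P
      rw [add_assoc, Finsupp.add_apply, dv_apply] at this
      exact neg_le_iff_add_nonneg.2 this) (mem_LL_iff.2 fun P =>
        Mge_mono P (neg_nonpos.2 (p P)) (const_mem P t))).resolve_left w0
  obtain ⟨q, l⟩ := eff2 (D := dv k (z - algebraMap k F t) + (single (pc h n g (.some c d m')) 1 +
    single (pc h n g 0) 1)) (fun P => by
      rw [Finsupp.add_apply, dv_apply]
      exact neg_le_iff_add_nonneg.1 (w1 P))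
    (by rw [map_add, map_add, dg_dv, dg_sgl, dg_sgl]; rfl) (p := pc h n g (.some u v m))
    (by simpa [n3, n4, dv_apply] using (mem_Mge.1 z2).resolve_left w0)
  obtain ⟨q, rfl⟩ := (pc h n g).surjective q
  have := congrArg (S h (.some x y n)) l
  rw [map_add, map_add, map_add, abel h _ w0, S_pc, S_pc, S_pc, S_pc, smul_zero, one_smul, one_smul,
    one_smul, zero_add, add_zero, ← e, add_right_inj] at this
  exact ⟨_, w0, by rw [this, ← l, sub_sub, add_sub_cancel_right]⟩

/-- the class of `(R) - (O)` -/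
def cl : (crv a b).Point →+ Pc k F :=
  AddMonoidHom.mk' (fun R => QuotientAddGroup.mk (single (pc h n g R) 1 - single (pc h n g 0) 1))
    fun R T => by
      rw [← QuotientAddGroup.mk_add, eq_comm, QuotientAddGroup.eq_iff_sub_mem]
      convert sq_prn h n g R T using 1
      abel

theorem cl_apply (R : (crv a b).Point) :
    cl h n g R = QuotientAddGroup.mk (single (pc h n g R) 1 - single (pc h n g 0) 1) := rfl

theorem mk_eq (D : Plk k F →₀ ℤ) : cl h n g (S h (.some x y n) D) =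
    QuotientAddGroup.mk' (prn k F) (D - single (pc h n g 0) (dg D)) := by
  induction D using Finsupp.induction_linear with
  | zero => simp
  | add D D' e e' =>
    rw [map_add, map_add, e, e', ← map_add, map_add dg, Finsupp.single_add, add_sub_add_comm]
  | single P m =>
    rw [S_single, map_zsmul, dg_sgl, ← Finsupp.smul_single_one P, ← Finsupp.smul_single_one _ m,
      ← smul_sub, map_zsmul, cl_apply, pc_sp]
    rfl

theorem cl_S {D : Plk k F →₀ ℤ} (e : dg D = 0) :
    cl h n g (S h (.some x y n) D) = QuotientAddGroup.mk D := by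
  rw [mk_eq h n g D, e, Finsupp.single_zero, sub_zero]
  rfl

include g in
/-- **Abel, both halves** -/
theorem prn_iff {D : Plk k F →₀ ℤ} : D ∈ prn k F ↔ dg D = 0 ∧ S h (.some x y n) D = 0 :=
  ⟨fun e => ⟨by obtain ⟨z, -, rfl⟩ := e; exact dg_dv z, abel_prn h _ e⟩, fun e => by
    rw [← QuotientAddGroup.eq_zero_iff, ← cl_S h n g e.1, e.2, map_zero]⟩

include g in
theorem ex_fn {D : Plk k F →₀ ℤ} (e : dg D = 0) (e' : S h (.some x y n) D = 0) :
    ∃ f : Fˣ, dv k (f : F) = D :=
  let ⟨z, z0, l⟩ := (prn_iff h n g).2 ⟨e, e'⟩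
  ⟨Units.mk0 z z0, l.symm⟩

theorem cl_inj : Function.Injective (cl h n g) := (injective_iff_map_eq_zero _).2 fun R e => by
  have := abel_prn h (.some x y n) ((QuotientAddGroup.eq_zero_iff _).1 e)
  rwa [map_sub, S_pc, S_pc, smul_zero, sub_zero, one_smul] at this

theorem cl_tors {m : ℕ} (hm : m ≠ 0) {z : Pc k F} (hz : m • z = 0) :
    ∃ R, m • R = 0 ∧ cl h n g R = z := by
  obtain ⟨D, rfl⟩ := QuotientAddGroup.mk_surjective z
  have e := cl_S h n g (dg_of_tors hm (mk_tors.1 hz))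
  exact ⟨_, cl_inj h n g (by rw [map_nsmul, e, hz, map_zero]), e⟩

section pull

variable {L : Type} [Field L] [Algebra k L] [Algebra F L] [IsScalarTower k F L] [CFF k L]
  [DecidableEq L] [FiniteDimensional F L] {a'' b'' : L} (h' : Cd a b a'' b'')
  (e3 : algebraMap F L a' = a'') (e4 : algebraMap F L b' = b'')

open Classical in
/-- the fibre over a point -/
theorem pull_pc (R : (crv a b).Point) (m : ℤ) (Q : Plk k L) : pull L (single (pc h n g R) m) Q =
    if sp h' Q (mp (algebraMap F L) e3 e4 (.some x y n)) = R then ram F Q * m else 0 := by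
  rw [pull_apply, sp_down h h']
  split_ifs with e
  · rw [← e, pc_sp, Finsupp.single_eq_same]
  · rw [Finsupp.single_eq_of_ne fun l => e (by rw [l, sp_pc]), mul_zero]

theorem S_pull_pc (R : (crv a b).Point) (m : ℤ) : S h' (mp (algebraMap F L) e3 e4 (.some x y n))
    (pull L (single (pc h n g R) m)) = Module.finrank F L • m • R := by
  rw [S_pull h h', S_pc]

end pull

end gn

/-! ### the function field is unique -/

section iso

omit [Algebra k F] in
theorem frac (φ : k →+* F) (e : y ^ 2 = x ^ 3 + φ a * x + φ b)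
    (tr : ∀ p : k[X], eval₂ φ x p = 0 → p = 0)
    (top : ∀ z, z ∈ Subfield.closure (Set.range φ ∪ {x, y})) :
    ∃ _ : Algebra (crv a b).CoordinateRing F, IsFractionRing (crv a b).CoordinateRing F ∧
      (∀ c, algebraMap _ F (CoordinateRing.mk (crv a b) (C (C c))) = φ c) ∧
      algebraMap _ F (CoordinateRing.mk (crv a b) (C X)) = x ∧
      algebraMap _ F (CoordinateRing.mk (crv a b) X) = y := by
  let ψ : (crv a b).CoordinateRing →+* F := AdjoinRoot.lift (eval₂RingHom φ x) y (by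
    simp [polynomial, e, eval₂_pow])
  have e1 : ∀ p, ψ (CoordinateRing.mk (crv a b) (C p)) = eval₂ φ x p := fun p => AdjoinRoot.lift_of _
  have e2 : ψ (CoordinateRing.mk (crv a b) X) = y := AdjoinRoot.lift_root _
  have : Module.Finite k[X] (crv a b).CoordinateRing := .of_basis (CoordinateRing.basis _)
  have inj : Function.Injective ψ := (RingHom.injective_iff_ker_eq_bot ψ).2
    (Ideal.eq_bot_of_comap_eq_bot (R := k[X]) (eq_bot_iff.2 fun p l => tr p ((e1 p).symm.trans l)))
  letI := ψ.toAlgebra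
  have : FaithfulSMul (crv a b).CoordinateRing F := (faithfulSMul_iff_algebraMap_injective _ _).2 inj
  refine ⟨inferInstance, IsFractionRing.of_field _ _ fun z => ?_, fun c => (e1 _).trans (eval₂_C _ _),
    (e1 _).trans (eval₂_X _ _), e2⟩
  obtain ⟨u, hu, v, hv, rfl⟩ := Subfield.mem_closure_iff.1 (top z)
  have l : Subring.closure (Set.range φ ∪ {x, y}) ≤ ψ.range := Subring.closure_le.2 (by
    rintro _ (⟨c, rfl⟩ | rfl | rfl)
    exacts [⟨_, (e1 _).trans (eval₂_C _ _)⟩, ⟨_, (e1 _).trans (eval₂_X _ _)⟩, ⟨_, e2⟩])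
  obtain ⟨u, rfl⟩ := l hu
  obtain ⟨v, rfl⟩ := l hv
  exact ⟨u, v, rfl⟩

theorem Gn.mem (g : Gn k x y) (z : F) :
    z ∈ Subfield.closure (Set.range (algebraMap k F) ∪ {x, y}) := by
  have : z ∈ (adjoin k {x, y}).toSubfield := by rw [g.top]; trivial
  exact this

variable {k' F' : Type} [Field k'] [Field F'] [Algebra k' F'] {c d : k'} {c' d' x' y' : F'}

theorem ex_iso (h : Cd a b a' b') (n : (crv a' b').Nonsingular x y) (g : Gn k x y)
    (h' : Cd c d c' d') (n' : (crv c' d').Nonsingular x' y') (g' : Gn k' x' y') (s₀ : k ≃+* k')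
    (e1 : s₀ a = c) (e2 : s₀ b = d) : ∃ s : F ≃+* F',
      (∀ z, s (algebraMap k F z) = algebraMap k' F' (s₀ z)) ∧ s x = x' ∧ s y = y' := by
  obtain ⟨_, _, p1, p2, p3⟩ := frac (a := a) (b := b) (algebraMap k F)
    (by rw [h.ha, h.hb, eqn n]) (transcendental_iff.1 g.tr) g.mem
  obtain ⟨_, _, q1, q2, q3⟩ := frac (a := a) (b := b) ((algebraMap k' F').comp (s₀ : k →+* k'))
    (x := x') (y := y') (by simpa [e1, e2, h'.ha, h'.hb] using eqn n') (fun p l => by
      rw [← eval₂_map] at l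
      exact (Polynomial.map_eq_zero _).1 (transcendental_iff.1 g'.tr _ l))
    (fun z => by
      rw [RingHom.coe_comp, Function.Surjective.range_comp (f := (s₀ : k →+* k')) s₀.surjective]
      exact g'.mem z)
  let s := IsLocalization.algEquiv (nonZeroDivisors (crv a b).CoordinateRing) F F'
  exact ⟨s.toRingEquiv, fun z => p1 z ▸ (s.commutes _).trans (q1 z), p2 ▸ (s.commutes _).trans q2,
    p3 ▸ (s.commutes _).trans q3⟩

variable [CFF k F] [CFF k' F'] [DecidableEq k] [DecidableEq F] [DecidableEq k'] [DecidableEq F']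

theorem cl_semi (h : Cd a b a' b') (n : (crv a' b').Nonsingular x y) (g : Gn k x y)
    (h' : Cd c d c' d') (n' : (crv c' d').Nonsingular x' y') (g' : Gn k' x' y') {s : F ≃+* F'}
    {s₀ : k ≃+* k'} (hs : ∀ z, s (algebraMap k F z) = algebraMap k' F' (s₀ z)) (hx : s x = x')
    (hy : s y = y') (e1 : (s₀ : k →+* k') a = c) (e2 : (s₀ : k →+* k') b = d) (R : (crv a b).Point) :
    semiP hs (cl h n g R) = cl h' n' g' (mp s₀ e1 e2 R) := by
  have l : ∀ R, plEquiv s s₀ hs (pc h n g R) = pc h' n' g' (mp s₀ e1 e2 R) := fun R => by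
    subst hx hy
    have := sp_semi h h' hs (pc h n g R) e1 e2 (h.ha ▸ (hs a).trans (e1 ▸ h'.ha))
      (h.hb ▸ (hs b).trans (e2 ▸ h'.hb)) (.some x y n)
    rw [sp_pc, mp_some] at this
    rw [← this]
    exact (pc_sp h' n' g' _).symm
  rw [cl_apply, cl_apply, semiP_mk, Finsupp.mapDomain_sub, Finsupp.mapDomain_single,
    Finsupp.mapDomain_single, l, l, map_zero]

theorem eP_cl (h : Cd a b a' b') (n : (crv a' b').Nonsingular x y) (g : Gn k x y)
    (h' : Cd c d c' d') (n' : (crv c' d').Nonsingular x' y') (g' : Gn k' x' y') (s₀ : k ≃+* k')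
    (e1 : (s₀ : k →+* k') a = c) (e2 : (s₀ : k →+* k') b = d) {m : ℕ} (hm : m ≠ 0)
    {R T : (crv a b).Point} (hR : m • R = 0) (hT : m • T = 0) :
    eP m (cl h' n' g' (mp s₀ e1 e2 R)) (cl h' n' g' (mp s₀ e1 e2 T)) =
      aU s₀ (eP m (cl h n g R) (cl h n g T)) := by
  obtain ⟨s, hs, hx, hy⟩ := ex_iso h n g h' n' g' s₀ e1 e2
  rw [← cl_semi h n g h' n' g' hs hx hy, ← cl_semi h n g h' n' g' hs hx hy,
    eP_semi hs hm (by rw [← map_nsmul, hR, map_zero]) (by rw [← map_nsmul, hT, map_zero])]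

end iso

/-- a model of the function field -/
structure Gf (a b : k) where
  F : Type
  [fd : Field F]
  [al : Algebra k F]
  x : F
  y : F
  eq : y ^ 2 = x ^ 3 + algebraMap k F a * x + algebraMap k F b
  g : Gn k x y

attribute [local instance] Gf.fd Gf.al

theorem ex_gf (a b : k) : Nonempty (Gf a b) := by
  let x : AlgebraicClosure (RatFunc k) := algebraMap (RatFunc k) _ RatFunc.X
  obtain ⟨y, e⟩ := IsAlgClosed.exists_pow_nat_eq (x ^ 3 + algebraMap k _ a * x + algebraMap k _ b)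
    two_pos
  exact ⟨⟨adjoin k {x, y}, gx k x y, gy k x y, Subtype.ext e, gn_adj
    ((transcendental_algebraMap_iff (algebraMap (RatFunc k) _).injective).2
      RatFunc.transcendental_X)⟩⟩

/-- a fixed model -/
def gf (a b : k) : Gf a b := (ex_gf a b).some

section weil

variable [DecidableEq k] [IsAlgClosed k] (h0 : Cd a b a b)

open Classical in
/-- **the pairing of Weil** on the points of order `m` -/
def eW (m : ℕ) (R T : (crv a b).Point) : Additive kˣ :=
  haveI := (gf a b).g.cff (h0.up _) ((h0.up _).nsg (gf a b).eq)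
  eP m (cl (h0.up _) ((h0.up _).nsg (gf a b).eq) (gf a b).g R)
    (cl (h0.up _) ((h0.up _).nsg (gf a b).eq) (gf a b).g T)

variable {m : ℕ} {R R' T T' : (crv a b).Point}

/-- the pairing can be computed in every model -/
theorem eW_cl [CFF k F] [DecidableEq F] (h : Cd a b a' b') (n : (crv a' b').Nonsingular x y)
    (g : Gn k x y) (hm : m ≠ 0) (hR : m • R = 0) (hT : m • T = 0) :
    eW h0 m R T = eP m (cl h n g R) (cl h n g T) := by
  classical
  haveI := (gf a b).g.cff (h0.up _) ((h0.up _).nsg (gf a b).eq)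
  have i : ∀ R, mp (RingEquiv.refl k : k →+* k) (rfl : _ = a) (rfl : _ = b) R = R := fun R => by
    rcases R with _ | ⟨u, v, n⟩
    exacts [rfl, mp_id _ _ _ n rfl rfl]
  have := eP_cl h n g (h0.up _) ((h0.up _).nsg (gf a b).eq) (gf a b).g (RingEquiv.refl k) rfl rfl
    hm hR hT
  rwa [i, i] at this

theorem eW_eq [CFF k F] [DecidableEq F] (h : Cd a b a' b') (n : (crv a' b').Nonsingular x y)
    (g : Gn k x y) (hm : m ≠ 0) {f f' : Fˣ} {A B : Plk k F →₀ ℤ} (hA : m • A = dv k (f : F))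
    (hB : m • B = dv k (f' : F)) :
    e k m f f' = eW h0 m (S h (.some x y n) A) (S h (.some x y n) B) := by
  rw [eW_cl h0 h n g hm (by rw [← map_nsmul, hA, abel h _ f.ne_zero])
    (by rw [← map_nsmul, hB, abel h _ f'.ne_zero]), cl_S h n g (dg_of_tors hm ⟨_, f.ne_zero, hA⟩),
    cl_S h n g (dg_of_tors hm ⟨_, f'.ne_zero, hB⟩), eP_mk hm hA hB]

theorem ex_mod : ∃ (F : Type) (_ : Field F) (_ : Algebra k F) (_ : CFF k F)
    (c : (crv a b).Point →+ Pc k F), Function.Injective c ∧
      (∀ m : ℕ, m ≠ 0 → ∀ z, m • z = 0 → ∃ R, m • R = 0 ∧ c R = z) ∧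
      (∀ (m : ℕ) R, m • R = 0 → m • c R = 0) ∧ ∀ m R T, eW h0 m R T = eP m (c R) (c T) := by
  classical
  haveI := (gf a b).g.cff (h0.up _) ((h0.up _).nsg (gf a b).eq)
  exact ⟨_, _, _, this, cl (h0.up _) ((h0.up _).nsg (gf a b).eq) (gf a b).g, cl_inj _ _ _,
    fun m hm z => cl_tors _ _ _ hm, fun m R e => by rw [← map_nsmul, e, map_zero], fun _ _ _ => rfl⟩

theorem eW_skew (m : ℕ) (R T : (crv a b).Point) : eW h0 m T R = -eW h0 m R T := by
  obtain ⟨F, _, _, _, c, -, -, -, e⟩ := ex_mod h0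
  rw [e, e, eP_skew]

theorem eW_add_left (hm : m ≠ 0) (hR : m • R = 0) (hR' : m • R' = 0) (hT : m • T = 0) :
    eW h0 m (R + R') T = eW h0 m R T + eW h0 m R' T := by
  obtain ⟨F, _, _, _, c, -, -, t, e⟩ := ex_mod h0
  rw [e, e, e, map_add, eP_add_left hm (t _ _ hR) (t _ _ hR') (t _ _ hT)]

theorem eW_add_right (hm : m ≠ 0) (hR : m • R = 0) (hT : m • T = 0) (hT' : m • T' = 0) :
    eW h0 m R (T + T') = eW h0 m R T + eW h0 m R T' := by
  obtain ⟨F, _, _, _, c, -, -, t, e⟩ := ex_mod h0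
  rw [e, e, e, map_add, eP_add_right hm (t _ _ hR) (t _ _ hT) (t _ _ hT')]

theorem eW_self (hm : m ≠ 0) (hR : m • R = 0) : eW h0 m R R = 0 := by
  obtain ⟨F, _, _, _, c, -, -, t, e⟩ := ex_mod h0
  rw [e, eP_self hm (t _ _ hR)]

theorem nsmul_eW (hm : m ≠ 0) (hR : m • R = 0) (hT : m • T = 0) : m • eW h0 m R T = 0 := by
  obtain ⟨F, _, _, _, c, -, -, t, e⟩ := ex_mod h0
  rw [e, nsmul_eP hm (t _ _ hR) (t _ _ hT)]

theorem eW_level {l : ℕ} (hl : l ≠ 0) (hm : m ≠ 0) (hR : (l * m) • R = 0) (hT : (l * m) • T = 0) :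
    l • eW h0 (l * m) R T = eW h0 m (l • R) (l • T) := by
  obtain ⟨F, _, _, _, c, -, -, t, e⟩ := ex_mod h0
  rw [e, e, map_nsmul, map_nsmul, eP_level hl hm (t _ _ hR) (t _ _ hT)]

theorem eW_level' {l : ℕ} (hl : l ≠ 0) (hm : m ≠ 0) (hR : (l * m) • R = 0) (hT : m • T = 0) :
    eW h0 (l * m) R T = eW h0 m (l • R) T := by
  obtain ⟨F, _, _, _, c, -, -, t, e⟩ := ex_mod h0
  rw [e, e, map_nsmul, eP_level' hl hm (t _ _ hR) (t _ _ hT)]

theorem eW_nondeg (hm : (m : k) ≠ 0) (hR : m • R = 0) (H : ∀ T, m • T = 0 → eW h0 m R T = 0) :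
    R = 0 := by
  obtain ⟨F, _, _, _, c, i, s, t, e⟩ := ex_mod h0
  refine i ((eP_nondeg hm (t _ _ hR) fun z hz => ?_).trans (map_zero c).symm)
  obtain ⟨T, hT, rfl⟩ := s m (ne_zero_of_cast hm) z hz
  rw [← e, H T hT]

/-- equivariance -/
theorem eW_semi {k' : Type} [Field k'] [DecidableEq k'] [IsAlgClosed k'] {c d : k'}
    (h1 : Cd c d c d) (s₀ : k ≃+* k') (e1 : (s₀ : k →+* k') a = c) (e2 : (s₀ : k →+* k') b = d)
    (hm : m ≠ 0) (hR : m • R = 0) (hT : m • T = 0) :
    eW h1 m (mp s₀ e1 e2 R) (mp s₀ e1 e2 T) = aU s₀ (eW h0 m R T) := by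
  classical
  haveI := (gf a b).g.cff (h0.up _) ((h0.up _).nsg (gf a b).eq)
  haveI := (gf c d).g.cff (h1.up _) ((h1.up _).nsg (gf c d).eq)
  exact eP_cl _ _ (gf a b).g _ _ (gf c d).g s₀ e1 e2 hm hR hT

end weil

end Vale.Agent.P014T.Pu
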